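import Vale.Agent.P064.Entropy

/-!
The chain inequality: if `u ⊆ v`, the entropy of `u` given `v` is at most half of the
information `v` carries on `u`, plus `|u|`, plus `∑ y, E P(y ∈ v | u) ^ (3/2)`.
-/

namespace Vale.Agent.P064

open Finset Real

theorem push_sum {α β κ : Type*} [Fintype α] [Fintype κ] [DecidableEq β] (f : α → β)
    (M : κ → α → ℝ) (b : β) : push f (fun a => ∑ k, M k a) b = ∑ k, push f (M k) b := by
  simp only [push]
  rw [sum_comm]
  exact sum_congr rfl fun a _ => by split <;> simp

/-- entropy depends only on the partition -/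
theorem ent_push_congr {α β γ : Type*} [Fintype α] [Fintype β] [Fintype γ] [DecidableEq β]
    [DecidableEq γ] (f : α → β) (g : α → γ) (M : α → ℝ)
    (h : ∀ a b, f a = f b ↔ g a = g b) : ent (push f M) = ent (push g M) := by
  unfold ent
  rw [negMulLog_sum_eq, negMulLog_sum_eq, total_push, total_push]
  have : ∀ a, push f M (f a) = push g M (g a) := fun a =>
    sum_congr rfl fun b _ => if_congr (h b a) rfl rfl
  simp only [this]

theorem ent_push_id {α : Type*} [Fintype α] [DecidableEq α] (f : α → α) (hf : ∀ a, f a = a)
    (M : α → ℝ) : ent (push f M) = ent M := by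
  congr 1
  funext b
  simp [push, hf]

theorem ent_push_const {α β : Type*} [Fintype α] [Fintype β] [DecidableEq β] (f : α → β) (b : β)
    (hf : ∀ a, f a = b) (M : α → ℝ) : ent (push f M) = 0 := by
  unfold ent
  rw [negMulLog_sum_eq, total_push]
  have : push f M b = ∑ a, M a := sum_congr rfl fun a _ => if_pos (hf a)
  simp only [hf, this, sum_neg_distrib, ← sum_mul, negMulLog, neg_mul, sub_self]

theorem push_fst {α β γ : Type*} [Fintype α] [Fintype γ] [DecidableEq β] [DecidableEq γ]
    (f : α → β) (g : α → γ) (M : α → ℝ) (b : β) :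
    ∑ c, push (fun a => (f a, g a)) M (b, c) = push f M b := by
  simp only [push]
  rw [sum_comm]
  refine sum_congr rfl fun a _ => ?_
  by_cases h : f a = b <;> simp [h]

/-- refining a partition by one bit -/
theorem ent_split {α β : Type*} [Fintype α] [Fintype β] [DecidableEq β] (f : α → β) (g : α → Bool)
    (M : α → ℝ) :
    ent (push (fun a => (f a, g a)) M) = ent (push f M) +
      ∑ b, h2 (push (fun a => (f a, g a)) M (b, true)) (push (fun a => (f a, g a)) M (b, false)) := by
  rw [ent_prod]
  congr 1
  · congr 1
    funext b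
    exact push_fst f g M b
  · refine sum_congr rfl fun b _ => ?_
    rw [h2_eq_ent]
    congr 1
    funext c
    cases c <;> simp

theorem log_three_halves {F P : ℝ} (hF : 0 < F) (hP : 0 < P) :
    log (F * sqrt (F / P)) = 3 / 2 * log F - 1 / 2 * log P := by
  rw [log_mul hF.ne' (sqrt_pos.2 (div_pos hF hP)).ne', log_sqrt (div_pos hF hP).le,
    log_div hF.ne' hP.ne']
  ring

/-- one coordinate inside one class -/
theorem chain_step {κ : Type*} [Fintype κ] (p : κ → Prop) [DecidablePred p] {a b : κ → ℝ}
    (ha : ∀ k, 0 ≤ a k) (hb : ∀ k, 0 ≤ b k) (h0 : ∀ k, ¬ p k → a k = 0) :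
    3 / 2 * ∑ k, h2 (a k) (b k) ≤ 1 / 2 * h2 (∑ k, a k) (∑ k, b k) + 3 / 2 * ∑ k, a k +
      (∑ k, if p k then a k + b k else 0) *
        sqrt ((∑ k, if p k then a k + b k else 0) / ∑ k, (a k + b k)) := by
  set F := ∑ k, if p k then a k + b k else 0
  set P := ∑ k, (a k + b k)
  set A := ∑ k, a k
  have hA : 0 ≤ A := sum_nonneg fun k _ => ha k
  have hF : 0 ≤ F := sum_nonneg fun k _ => by split <;> simp [add_nonneg, ha k, hb k]
  have hb' : ∀ k, 0 ≤ if p k then b k else 0 := fun k => by split <;> simp [hb k]
  have eh : ∀ k, h2 (a k) (b k) = h2 (a k) (if p k then b k else 0) := fun k => by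
    by_cases h : p k <;> simp [h, h0, h2]
  have eF : A + ∑ k, (if p k then b k else 0) = F := by
    rw [← sum_add_distrib]
    exact sum_congr rfl fun k _ => by by_cases h : p k <;> simp [h, h0]
  have up : ∑ k, h2 (a k) (b k) ≤ A * (log F - log A) + A := by
    simp only [eh]
    have := (h2_sum_le ha hb').trans (h2_le hA (sum_nonneg fun k _ => hb' k))
    rwa [eF] at this
  have lo : A * (log P - log A) ≤ h2 A (∑ k, b k) := by
    simp only [P, sum_add_distrib]
    exact le_h2 hA (sum_nonneg fun k _ => hb k)
  rcases hA.eq_or_lt with e | e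
  · rw [← e] at up lo ⊢
    have := mul_nonneg hF (sqrt_nonneg (F / P))
    simp only [zero_mul, add_zero] at up lo ⊢
    linarith
  · have hFA : A ≤ F := eF ▸ le_add_of_nonneg_right (sum_nonneg fun k _ => hb' k)
    have hPA : A ≤ P := by
      simp only [P, sum_add_distrib]
      exact le_add_of_nonneg_right (sum_nonneg fun k _ => hb k)
    have hF' : 0 < F := e.trans_le hFA
    have hP' : 0 < P := e.trans_le hPA
    have hy : 0 < F * sqrt (F / P) := mul_pos hF' (sqrt_pos.2 (div_pos hF' hP'))
    have := mul_log_sub_le e.le hy.le fun _ => hy.ne'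
    rw [log_three_halves hF' hP'] at this
    nlinarith

/-- Jensen for `t ↦ t ^ (3/2)`, from the classes of `f` to the points -/
theorem coarse_le {α β : Type*} [Fintype α] [Fintype β] [DecidableEq β] (f : α → β) {G U : α → ℝ}
    (hG : ∀ a, 0 ≤ G a) (hGU : ∀ a, G a ≤ U a) :
    ∑ b, push f G b * sqrt (push f G b / push f U b) ≤
      ∑ a, U a * ((G a / U a) * sqrt (G a / U a)) := by
  have hU : ∀ a, 0 ≤ U a := fun a => (hG a).trans (hGU a)
  set c : β → ℝ := fun b => sqrt (push f G b / push f U b)
  have hc3 : ∀ b, push f U b * c b ^ 3 = push f G b * c b := by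
    intro b
    rw [pow_succ, sq_sqrt (div_nonneg (push_nonneg f hG b) (push_nonneg f hU b)), ← mul_assoc]
    rcases eq_or_ne (push f U b) 0 with h | h
    · have h' : push f G b ≤ 0 := h ▸ sum_le_sum fun a _ => by split <;> simp [hGU a]
      rw [h, h'.antisymm (push_nonneg f hG b)]
      simp
    · rw [mul_div_cancel₀ _ h]
  have key : ∀ a, 3 / 2 * (G a * c (f a)) - 1 / 2 * (U a * c (f a) ^ 3) ≤
      U a * ((G a / U a) * sqrt (G a / U a)) := by
    intro a
    set x := sqrt (G a / U a)
    have hx : 0 ≤ x := sqrt_nonneg _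
    have hc : 0 ≤ c (f a) := sqrt_nonneg _
    have hGx : G a = U a * x ^ 2 := by
      rw [sq_sqrt (div_nonneg (hG a) (hU a))]
      rcases eq_or_ne (U a) 0 with h | h
      · rw [h, zero_mul]; exact ((hGU a).trans h.le).antisymm (hG a)
      · rw [mul_div_cancel₀ _ h]
    have hdx : G a / U a = x ^ 2 := (sq_sqrt (div_nonneg (hG a) (hU a))).symm
    rw [hdx, hGx]
    nlinarith [mul_nonneg (hU a) (mul_nonneg (sq_nonneg (x - c (f a))) (add_nonneg hx hc)),
      mul_nonneg (hU a) (mul_nonneg (sq_nonneg (x - c (f a))) hx)]
  have h := sum_le_sum fun a (_ : a ∈ univ) => key a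
  rw [sum_sub_distrib, ← mul_sum, ← mul_sum, ← sum_push f G c,
    ← sum_push f U fun b => c b ^ 3, sum_congr rfl fun b _ => hc3 b] at h
  simp only [c] at h
  linarith

variable {X : Type} [Fintype X] [DecidableEq X]

theorem chain_bound {K : Finset X → Finset X → ℝ} (hK : ∀ v u, 0 ≤ K v u)
    (hsub : ∀ v u, K v u ≠ 0 → u ⊆ v) :
    ∑ v, ent (K v) ≤ 1 / 2 * (ent (fun u => ∑ v, K v u) - ∑ v, ent (K v)) +
      3 / 2 * (∑ v, ∑ u, K v u * (u.card : ℝ)) +
      ∑ y, ∑ u, (∑ v, K v u) * (((∑ v, if y ∈ v then K v u else 0) / ∑ v, K v u) *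
        sqrt ((∑ v, if y ∈ v then K v u else 0) / ∑ v, K v u)) := by
  set U : Finset X → ℝ := fun u => ∑ v, K v u
  set A : X → ℝ := fun y => ∑ v, ∑ u, if y ∈ u then K v u else 0
  set Ψ : X → ℝ := fun y => ∑ u, (∑ v, K v u) * (((∑ v, if y ∈ v then K v u else 0) / ∑ v, K v u) *
    sqrt ((∑ v, if y ∈ v then K v u else 0) / ∑ v, K v u))
  have main : ∀ S : Finset X, 3 / 2 * ∑ v, ent (push (fun u => u ∩ S) (K v)) ≤
      1 / 2 * ent (push (fun u => u ∩ S) U) + 3 / 2 * ∑ y ∈ S, A y + ∑ y ∈ S, Ψ y := by
    intro S
    induction S using Finset.induction with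
    | empty =>
      have h : ∀ M, ent (push (fun u : Finset X => u ∩ ∅) M) = 0 :=
        fun M => ent_push_const _ ∅ (fun u => inter_empty u) M
      simp only [h, sum_empty, sum_const_zero, mul_zero, add_zero]
      exact le_rfl
    | @insert y S hy ih =>
      set f : Finset X → Finset X := fun u => u ∩ S
      set g : Finset X → Finset X × Bool := fun u => (f u, decide (y ∈ u))
      have hfg : ∀ M : Finset X → ℝ, ent (push (fun u => u ∩ insert y S) M) = ent (push f M) +
          ∑ s, h2 (push g M (s, true)) (push g M (s, false)) := by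
        intro M
        rw [ent_push_congr (fun u => u ∩ insert y S) g M fun a b => ?_, ent_split]
        simp only [g, f, Prod.mk.injEq, decide_eq_decide, Finset.ext_iff, mem_inter, mem_insert]
        constructor
        · intro h
          refine ⟨fun x => ?_, ?_⟩
          · by_cases hx : x = y
            · simp [hx, hy]
            · simpa [hx] using h x
          · simpa using h y
        · rintro ⟨h, hy'⟩ x
          by_cases hx : x = y
          · simp [hx, hy']
          · simpa [hx] using h x
      have step : ∀ s, 3 / 2 * ∑ v, h2 (push g (K v) (s, true)) (push g (K v) (s, false)) ≤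
          1 / 2 * h2 (push g U (s, true)) (push g U (s, false)) +
            3 / 2 * ∑ v, push g (K v) (s, true) +
            push f (fun u => ∑ v, if y ∈ v then K v u else 0) s *
              sqrt (push f (fun u => ∑ v, if y ∈ v then K v u else 0) s / push f U s) := by
        intro s
        have e1 : ∀ v, push g (K v) (s, true) + push g (K v) (s, false) = push f (K v) s :=
          fun v => by simpa using push_fst f (fun u => decide (y ∈ u)) (K v) s
        have h0 : ∀ v : Finset X, ¬ y ∈ v → push g (K v) (s, true) = 0 := by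
          intro v hv
          refine sum_eq_zero fun u _ => ?_
          split_ifs with h
          · by_contra hne
            exact hv (hsub v u hne (of_decide_eq_true (congrArg Prod.snd h)))
          · rfl
        have := chain_step (fun v => y ∈ v) (fun v => push_nonneg g (hK v) (s, true))
          (fun v => push_nonneg g (hK v) (s, false)) h0
        simp only [e1] at this
        have e2 : push f (fun u => ∑ v, if y ∈ v then K v u else 0) s =
            ∑ v, if y ∈ v then push f (K v) s else 0 := by
          rw [push_sum]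
          exact sum_congr rfl fun v _ => by split <;> simp [push]
        simp only [U, push_sum, e2] at this ⊢
        exact this
      have hA : ∑ s, ∑ v, push g (K v) (s, true) = A y := by
        rw [sum_comm]
        refine sum_congr rfl fun v _ => ?_
        simp only [push]
        rw [sum_comm]
        refine sum_congr rfl fun u _ => ?_
        by_cases h : y ∈ u <;> simp [g, h]
      have hΨ : ∑ s, push f (fun u => ∑ v, if y ∈ v then K v u else 0) s *
          sqrt (push f (fun u => ∑ v, if y ∈ v then K v u else 0) s / push f U s) ≤ Ψ y :=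
        coarse_le f (fun u => sum_nonneg fun v _ => by split <;> simp [hK v u])
          (fun u => sum_le_sum fun v _ => by split <;> simp [hK v u])
      have h := sum_le_sum fun s (_ : s ∈ univ) => step s
      rw [sum_add_distrib, sum_add_distrib, ← mul_sum, ← mul_sum, ← mul_sum, hA, sum_comm] at h
      rw [sum_insert hy, sum_insert hy, hfg U, sum_congr rfl fun v _ => hfg (K v), sum_add_distrib]
      linarith
  have h := main univ
  rw [ent_push_id _ (fun u => inter_univ u),
    sum_congr rfl fun v _ => ent_push_id _ (fun u => inter_univ u) (K v)] at h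
  have hA : ∑ y, A y = ∑ v, ∑ u, K v u * (u.card : ℝ) := by
    rw [sum_comm]
    refine sum_congr rfl fun v _ => ?_
    rw [sum_comm]
    refine sum_congr rfl fun u _ => ?_
    rw [sum_ite_mem, univ_inter, sum_const, nsmul_eq_mul, mul_comm]
  rw [hA] at h
  linarith

end Vale.Agent.P064
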