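import Mathlib

/-!
Thresholds for the appearance of a subgraph in `G(n,p)` (problem P064).
`G.copyCount F` is Mathlib's number of subgraphs of `G` isomorphic to `F`.
-/

namespace Vale.Agent.P064

/-- the probability of the graph `G` in `G(n,p)` -/
noncomputable def wgt (n : ℕ) (p : ℝ) (G : SimpleGraph (Fin n)) : ℝ :=
  p ^ G.edgeSet.ncard * (1 - p) ^ (n.choose 2 - G.edgeSet.ncard)

open Classical in
/-- `Pr(N(G(n,p),H) > 0)` -/
noncomputable def probCopy {V : Type} (n : ℕ) (p : ℝ) (H : SimpleGraph V) : ℝ :=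
  ∑ G : SimpleGraph (Fin n), if 0 < G.copyCount H then wgt n p G else 0

open Classical in
/-- `E N(G(n,p),F)` -/
noncomputable def meanCopies {W : Type} (n : ℕ) (p : ℝ) (F : SimpleGraph W) : ℝ :=
  ∑ G : SimpleGraph (Fin n), wgt n p G * (G.copyCount F : ℝ)

/-- the threshold `p_c(n,H)` -/
noncomputable def pc {V : Type} (n : ℕ) (H : SimpleGraph V) : ℝ :=
  sInf {p | 0 ≤ p ∧ p ≤ 1 ∧ 1 / 2 ≤ probCopy n p H}

/-- the expectation threshold `p_E(n,H)` -/
noncomputable def pE {V : Type} (n : ℕ) (H : SimpleGraph V) : ℝ :=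
  sInf {p | 0 ≤ p ∧ p ≤ 1 ∧ ∀ F : H.Subgraph, 1 / 2 ≤ meanCopies n p F.coe}

/-- the modified expectation threshold `p̃_E(n,H)` -/
noncomputable def pT {V : Type} [Fintype V] (n : ℕ) (H : SimpleGraph V) : ℝ :=
  sInf {p | 0 ≤ p ∧ p ≤ 1 ∧
    ∀ F : H.Subgraph, (H.copyCount F.coe : ℝ) / 2 ≤ meanCopies n p F.coe}

end Vale.Agent.P064
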