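import Mathlib

/-!
Entropy of nonnegative weight functions, homogeneous of degree one.
-/

namespace Vale.Agent.P064

open Finset Real

set_option linter.unusedSectionVars false

variable {α β κ : Type*} [Fintype α] [Fintype β] [Fintype κ]

/-- total mass times the entropy of the normalised weights -/
noncomputable def ent (M : α → ℝ) : ℝ := ∑ a, negMulLog (M a) - negMulLog (∑ a, M a)

/-- image of weights under a map -/
noncomputable def push [DecidableEq β] (f : α → β) (M : α → ℝ) (b : β) : ℝ :=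
  ∑ a, if f a = b then M a else 0

theorem mul_log_sub_le {x y : ℝ} (hx : 0 ≤ x) (hy : 0 ≤ y) (h : x ≠ 0 → y ≠ 0) :
    x * (log y - log x) ≤ y - x := by
  rcases hx.eq_or_lt with rfl | hx'
  · simpa using hy
  have hy' : 0 < y := hy.lt_of_ne (Ne.symm (h hx'.ne'))
  have h1 := log_le_sub_one_of_pos (div_pos hy' hx')
  rw [log_div hy'.ne' hx'.ne'] at h1
  calc x * (log y - log x) ≤ x * (y / x - 1) := mul_le_mul_of_nonneg_left h1 hx
    _ = y - x := by field_simp

/-- Gibbs' inequality -/
theorem negMulLog_sum_le {P Q : α → ℝ} (hP : ∀ a, 0 ≤ P a) (hQ : ∀ a, 0 ≤ Q a)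
    (h : ∀ a, P a ≠ 0 → Q a ≠ 0) :
    ∑ a, negMulLog (P a) ≤ ∑ a, -(P a * log (Q a)) + (∑ a, Q a - ∑ a, P a) := by
  have := sum_le_sum fun a (_ : a ∈ univ) => mul_log_sub_le (hP a) (hQ a) (h a)
  simp only [mul_sub, sum_sub_distrib] at this
  simp only [negMulLog, neg_mul, sum_neg_distrib]
  linarith

theorem ent_eq (M : α → ℝ) : ent M = ∑ a, M a * (log (∑ a, M a) - log (M a)) := by
  simp only [ent, negMulLog, neg_mul, sum_neg_distrib, mul_sub, sum_sub_distrib, sum_mul]
  ring

theorem le_total {M : α → ℝ} (h : ∀ a, 0 ≤ M a) (a : α) : M a ≤ ∑ a, M a :=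
  single_le_sum (fun b _ => h b) (mem_univ a)

theorem ent_nonneg {M : α → ℝ} (h : ∀ a, 0 ≤ M a) : 0 ≤ ent M := by
  rw [ent_eq]
  refine sum_nonneg fun a _ => ?_
  rcases (h a).eq_or_lt with e | e
  · simp [← e]
  · exact mul_nonneg e.le (sub_nonneg.2 (log_le_log e (le_total h a)))

theorem ent_smul (c : ℝ) (M : α → ℝ) : ent (fun a => c * M a) = c * ent M := by
  simp only [ent, ← mul_sum, negMulLog_mul, sum_add_distrib, ← sum_mul]
  ring

theorem ent_comp_equiv (e : β ≃ α) (M : α → ℝ) : ent (fun b => M (e b)) = ent M := by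
  simp [ent, Equiv.sum_comp e M, Equiv.sum_comp e fun a => negMulLog (M a)]

/-- superadditivity -/
theorem ent_sum_le {M : κ → α → ℝ} (h : ∀ k a, 0 ≤ M k a) :
    ∑ k, ent (M k) ≤ ent (fun a => ∑ k, M k a) := by
  classical
  set T : α → ℝ := fun a => ∑ k, M k a
  set m : ℝ := ∑ a, T a
  have hT : ∀ a, 0 ≤ T a := fun a => sum_nonneg fun k _ => h k a
  have hm : 0 ≤ m := sum_nonneg fun a _ => hT a
  have hk : ∀ k, 0 ≤ ∑ a, M k a := fun k => sum_nonneg fun a _ => h k a
  have key : ∀ k a, M k a * (log (∑ a, M k a) - log (M k a)) ≤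
      M k a * (log m - log (T a)) + ((∑ a, M k a) * T a / m - M k a) := by
    intro k a
    rcases (h k a).eq_or_lt with e | e
    · simp only [← e, zero_mul, sub_zero, zero_add]
      exact div_nonneg (mul_nonneg (hk k) (hT a)) hm
    · have h1 : 0 < ∑ a, M k a := e.trans_le (le_total (h k) a)
      have h2 : 0 < T a := e.trans_le (single_le_sum (fun l _ => h l a) (mem_univ k))
      have h3 : 0 < m := h2.trans_le (le_total hT a)
      have := mul_log_sub_le e.le (div_nonneg (mul_nonneg h1.le h2.le) h3.le)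
        (fun _ => (div_pos (mul_pos h1 h2) h3).ne')
      rw [log_div (mul_pos h1 h2).ne' h3.ne', log_mul h1.ne' h2.ne'] at this
      linarith
  have hs := sum_le_sum fun k (_ : k ∈ univ) => sum_le_sum fun a (_ : a ∈ univ) => key k a
  simp only [← ent_eq, sum_add_distrib, sum_sub_distrib] at hs
  have e1 : ∑ k, ∑ a, M k a * (log m - log (T a)) = ent T := by
    rw [sum_comm, ent_eq]
    exact sum_congr rfl fun a _ => (sum_mul _ _ _).symm
  have e2 : ∑ k, ∑ a, (∑ a, M k a) * T a / m ≤ m := by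
    rw [sum_comm]
    refine le_of_le_of_eq (sum_le_sum fun a _ => ?_) (rfl : ∑ a, T a = m)
    rw [← sum_div, ← sum_mul, sum_comm]
    rcases hm.eq_or_lt with e | e
    · rw [← e]; simp [hT a]
    · exact le_of_eq (by rw [show ∑ a, ∑ k, M k a = m from rfl]; field_simp)
  have e3 : ∑ k, ∑ a, M k a = m := sum_comm
  linarith

theorem negMulLog_sum_eq [DecidableEq β] (f : α → β) (M : α → ℝ) :
    ∑ b, negMulLog (push f M b) = ∑ a, -(M a * log (push f M (f a))) := by
  rw [← sum_fiberwise univ f fun a => -(M a * log (push f M (f a)))]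
  refine sum_congr rfl fun b _ => ?_
  rw [sum_congr rfl fun a ha => by rw [(mem_filter.1 ha).2], negMulLog, sum_neg_distrib, ← sum_mul,
    push, sum_filter, neg_mul]

theorem sum_push [DecidableEq β] (f : α → β) (M : α → ℝ) (φ : β → ℝ) :
    ∑ b, push f M b * φ b = ∑ a, M a * φ (f a) := by
  simp only [push, sum_mul, ite_mul, zero_mul]
  rw [sum_comm]
  simp

theorem total_push [DecidableEq β] (f : α → β) (M : α → ℝ) : ∑ b, push f M b = ∑ a, M a := by
  simpa using sum_push f M fun _ => 1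

theorem push_nonneg [DecidableEq β] (f : α → β) {M : α → ℝ} (h : ∀ a, 0 ≤ M a) (b : β) :
    0 ≤ push f M b :=
  sum_nonneg fun a _ => by split <;> simp [h a]

/-- joint entropy by rows -/
theorem ent_prod (M : α × β → ℝ) :
    ent M = ent (fun a => ∑ b, M (a, b)) + ∑ a, ent fun b => M (a, b) := by
  simp only [ent, Fintype.sum_prod_type, sum_sub_distrib]
  ring

theorem ent_swap (M : α → β → ℝ) :
    ent (fun a => ∑ b, M a b) + ∑ a, ent (fun b => M a b) =
      ent (fun b => ∑ a, M a b) + ∑ b, ent (fun a => M a b) := by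
  rw [← ent_prod fun p : α × β => M p.1 p.2, ← ent_prod fun p : β × α => M p.2 p.1]
  exact (ent_comp_equiv (Equiv.prodComm β α) fun p : α × β => M p.1 p.2).symm

/-- product weights -/
theorem ent_mul_div {M : α → ℝ} {N : β → ℝ} {n : ℝ} (hn : ∑ b, N b = n)
    (hM : n = 0 → ∀ a, M a = 0) :
    ent (fun p : α × β => M p.1 * N p.2 / n) = ent M + (∑ a, M a) / n * ent N := by
  have e1 : (fun a => ∑ b, M a * N b / n) = M := by
    funext a
    rw [← sum_div, ← mul_sum, hn]
    rcases eq_or_ne n 0 with h | h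
    · simp [hM h a]
    · field_simp
  have e2 : ∀ a, ent (fun b => M a * N b / n) = M a / n * ent N := fun a => by
    rw [← ent_smul]; congr 1; funext b; ring
  rw [ent_prod, e1, sum_congr rfl fun a _ => e2 a, ← sum_mul, ← sum_div]

/-- one split of a coarse partition -/
noncomputable def h2 (a b : ℝ) : ℝ := negMulLog a + negMulLog b - negMulLog (a + b)

theorem h2_eq (a b : ℝ) : h2 a b = a * (log (a + b) - log a) + b * (log (a + b) - log b) := by
  simp only [h2, negMulLog]; ring

theorem h2_eq_ent (a b : ℝ) : h2 a b = ent (fun c : Bool => if c then a else b) := by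
  simp [h2, ent]

theorem h2_le {a b : ℝ} (ha : 0 ≤ a) (hb : 0 ≤ b) :
    h2 a b ≤ a * (log (a + b) - log a) + a := by
  rw [h2_eq]
  have := mul_log_sub_le hb (add_nonneg ha hb) fun h => (add_pos_of_nonneg_of_pos ha
    (hb.lt_of_ne (Ne.symm h))).ne'
  linarith

theorem le_h2 {a b : ℝ} (ha : 0 ≤ a) (hb : 0 ≤ b) :
    a * (log (a + b) - log a) ≤ h2 a b := by
  rw [h2_eq]
  refine le_add_of_nonneg_right ?_
  rcases hb.eq_or_lt with e | e
  · simp [← e]
  · exact mul_nonneg hb (sub_nonneg.2 (log_le_log e (le_add_of_nonneg_left ha)))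

theorem h2_sum_le {a b : κ → ℝ} (ha : ∀ k, 0 ≤ a k) (hb : ∀ k, 0 ≤ b k) :
    ∑ k, h2 (a k) (b k) ≤ h2 (∑ k, a k) (∑ k, b k) := by
  simp only [h2_eq_ent]
  refine (ent_sum_le fun k c => ?_).trans_eq ?_
  · cases c <;> simp [ha k, hb k]
  · congr 1; funext c; cases c <;> simp

end Vale.Agent.P064
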