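import Mathlib

/-!
A finite group acts on a finite ground set.  If every subset `S` of `A` satisfies
`|orbit S| * q ^ |S| ≥ 1`, then a random translate of any `J` lies in `A` with probability at most
`(C q) ^ |J|`, where `C` grows like the logarithm of `|A|`.
-/

namespace Vale.Agent.P064

open Finset

set_option linter.unusedSectionVars false

variable {G X : Type*} [Group G] [Fintype G] [DecidableEq X] (act : G →* Equiv.Perm X)

/-- translate of a finite set -/
def im (g : G) (S : Finset X) : Finset X := S.map (act g).toEmbedding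

/-- orbit of a finite set -/
def orb (S : Finset X) : Finset (Finset X) := univ.image fun g => im act g S

/-- probability that a random translate of `S` lies in `A` -/
noncomputable def pr (A S : Finset X) : ℝ :=
  (#(univ.filter fun g : G => im act g S ⊆ A) : ℝ) / Fintype.card G

theorem im_mul (g h : G) (S : Finset X) : im act (g * h) S = im act g (im act h S) := by
  simp [im, Finset.map_map]; congr 1

theorem im_one (S : Finset X) : im act 1 S = S := by
  ext x; simp [im, mem_map_equiv]; rfl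

@[simp] theorem card_im (g : G) (S : Finset X) : #(im act g S) = #S := card_map _

theorem im_inv_im (g : G) (S : Finset X) : im act g⁻¹ (im act g S) = S := by
  rw [← im_mul, inv_mul_cancel, im_one]

theorem im_im_inv (g : G) (S : Finset X) : im act g (im act g⁻¹ S) = S := by
  rw [← im_mul, mul_inv_cancel, im_one]

theorem im_injective (g : G) : Function.Injective (im act g) := fun S T h => by
  rw [← im_inv_im act g S, h, im_inv_im]

theorem im_subset_im {g : G} {S T : Finset X} : im act g S ⊆ im act g T ↔ S ⊆ T := map_subset_map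

theorem im_mem_orb {g : G} {S T : Finset X} (hT : T ∈ orb act S) : im act g T ∈ orb act S := by
  simp only [orb, mem_image, mem_univ, true_and] at hT ⊢
  obtain ⟨h, rfl⟩ := hT
  exact ⟨g * h, im_mul act g h S⟩

theorem card_of_mem_orb {S T : Finset X} (hT : T ∈ orb act S) : #T = #S := by
  simp only [orb, mem_image, mem_univ, true_and] at hT
  obtain ⟨h, rfl⟩ := hT
  simp

theorem orb_card_pos (S : Finset X) : 0 < #(orb act S) :=
  card_pos.2 ⟨_, mem_image_of_mem _ (mem_univ 1)⟩

/-- averaging over a homogeneous image -/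
theorem sum_image_smul {G Y : Type*} [Group G] [Fintype G] [DecidableEq Y] (f : G → Y)
    (hf : ∀ h g g', f g = f g' → f (h * g) = f (h * g')) (φ : Y → ℝ) :
    (Fintype.card G : ℝ) * ∑ y ∈ univ.image f, φ y =
      #(univ.image f) * ∑ g, φ (f g) := by
  classical
  have key : ∀ y ∈ univ.image f,
      #(univ.filter fun g => f g = y) = #(univ.filter fun g => f g = f 1) := by
    intro y hy
    simp only [mem_image, mem_univ, true_and] at hy
    obtain ⟨h, rfl⟩ := hy
    refine (Finset.card_bij (fun g _ => h * g) ?_ ?_ ?_).symm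
    · intro g hg
      simp only [mem_filter, mem_univ, true_and] at hg ⊢
      simpa using hf h g 1 hg
    · intro a _ b _ hab
      exact mul_left_cancel hab
    · intro g hg
      simp only [mem_filter, mem_univ, true_and] at hg ⊢
      exact ⟨h⁻¹ * g, by simpa using hf h⁻¹ g h hg, by simp⟩
  set m := #(univ.filter fun g => f g = f 1) with hm
  have hsum : ∀ ψ : Y → ℝ, ∑ g, ψ (f g) = m * ∑ y ∈ univ.image f, ψ y := by
    intro ψ
    rw [← Finset.sum_fiberwise_of_maps_to (g := f) (t := univ.image f)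
      (fun g _ => mem_image_of_mem f (mem_univ g)) fun g => ψ (f g), mul_sum]
    refine sum_congr rfl fun y hy => ?_
    rw [sum_congr rfl fun g hg => by rw [(mem_filter.1 hg).2], sum_const, key y hy, nsmul_eq_mul]
  have h1 := hsum fun _ => 1
  simp at h1
  rw [hsum φ, h1]
  ring

theorem sum_orb (J : Finset X) (φ : Finset X → ℝ) :
    (Fintype.card G : ℝ) * ∑ T ∈ orb act J, φ T = #(orb act J) * ∑ g, φ (im act g J) :=
  sum_image_smul _ (fun h g g' e => by
    show im act (h * g) J = im act (h * g') J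
    rw [im_mul, im_mul]; exact congrArg (im act h) e) φ

/-- the copies of `J` inside `A` -/
def copies (A J : Finset X) : Finset (Finset X) := (orb act J).filter (· ⊆ A)

theorem card_copies (A J : Finset X) :
    (#(copies act A J) : ℝ) = #(orb act J) * pr act A J := by
  classical
  have hG : (0 : ℝ) < Fintype.card G := by exact_mod_cast Fintype.card_pos
  have h := sum_orb act J fun T => if T ⊆ A then 1 else 0
  simp only [sum_boole] at h
  rw [pr, copies, mul_div, eq_div_iff hG.ne', mul_comm]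
  exact h

theorem pr_le_one (A S : Finset X) : pr act A S ≤ 1 := by
  rw [pr, div_le_one (by exact_mod_cast Fintype.card_pos)]
  exact_mod_cast card_le_univ _

theorem pr_nonneg (A S : Finset X) : 0 ≤ pr act A S := by rw [pr]; positivity

theorem card_le_of_pr_pos {A S : Finset X} (h : pr act A S ≠ 0) : #S ≤ #A := by
  rw [pr, Ne, div_eq_zero_iff, not_or, Nat.cast_eq_zero, Finset.card_eq_zero, ← Ne,
    ← nonempty_iff_ne_empty] at h
  obtain ⟨g, hg⟩ := h.1
  simpa using card_le_card (mem_filter.1 hg).2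

/-- all subsets of `A` have expected count at least one at density `q` -/
def Spr (q : ℝ) (A : Finset X) : Prop := ∀ S ⊆ A, 1 ≤ (#(orb act S) : ℝ) * q ^ #S

/-- the weight of a further copy -/
noncomputable def phi (x : ℝ) (A J : Finset X) : ℝ := ∑ T ∈ orb act J, x ^ #(T \ A)

theorem phi_im (x : ℝ) (g : G) (A J : Finset X) : phi act x (im act g A) J = phi act x A J := by
  unfold phi
  refine Finset.sum_nbij' (fun T => im act g⁻¹ T) (fun T => im act g T)
    (fun T hT => im_mem_orb act hT) (fun T hT => im_mem_orb act hT)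
    (fun T _ => im_im_inv act g T) (fun T _ => im_inv_im act g T) fun T _ => ?_
  have : im act g⁻¹ T \ A = im act g⁻¹ (T \ im act g A) := by
    conv_lhs => rw [← im_inv_im act g A]
    simp [im, Finset.map_sdiff]
  rw [this, card_im]

theorem phi_eq (x : ℝ) (A J : Finset X) :
    phi act x A J =
      #(orb act J) * ∑ I ∈ J.powerset, (1 - x) ^ #I * x ^ (#J - #I) * pr act A I := by
  classical
  have hG : (0 : ℝ) < Fintype.card G := by exact_mod_cast Fintype.card_pos
  have h := sum_orb act J fun T => x ^ #(T \ A)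
  have hg : ∀ g : G, x ^ #(im act g J \ A) =
      ∑ I ∈ J.powerset, (1 - x) ^ #I * x ^ (#J - #I) * (if im act g I ⊆ A then 1 else 0) := by
    intro g
    have e : x ^ #(im act g J \ A) =
        ∏ y ∈ J, ((if act g y ∈ A then 1 - x else 0) + x) := by
      have e1 : ∀ y ∈ J, (if act g y ∈ A then 1 - x else 0) + x = if act g y ∈ A then 1 else x :=
        fun y _ => by split <;> simp
      rw [prod_congr rfl e1, prod_ite, prod_const_one, one_mul, prod_const]
      congr 1
      have e2 : im act g J \ A = (J.filter fun y => act g y ∉ A).map (act g).toEmbedding := by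
        ext z
        simp [im, mem_map_equiv]
      rw [e2, card_map]
    rw [e, prod_add]
    refine sum_congr rfl fun I hI => ?_
    rw [mem_powerset] at hI
    rw [prod_ite_zero, prod_const, prod_const, card_sdiff_of_subset hI]
    have : (∀ y ∈ I, act g y ∈ A) ↔ im act g I ⊆ A := by
      rw [im, map_eq_image, image_subset_iff]; rfl
    simp only [this]
    split <;> simp
  simp only [hg] at h
  rw [sum_comm] at h
  simp only [← mul_sum, sum_boole] at h
  apply mul_left_cancel₀ hG.ne'
  rw [phi, h, mul_left_comm]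
  congr 1
  rw [mul_sum]
  refine sum_congr rfl fun I _ => ?_
  rw [pr]
  field_simp

/-- union of a tuple -/
def un {s : ℕ} (τ : Fin s → Finset X) : Finset X := univ.biUnion τ

/-- tuples with a common translate of `A` above them -/
noncomputable def ind (A : Finset X) {s : ℕ} (τ : Fin s → Finset X) : ℝ :=
  if ∃ g, ∀ i, τ i ⊆ im act g A then 1 else 0

theorem tuple_le {x : ℝ} (hx0 : 0 ≤ x) (hx1 : x ≤ 1) (A J : Finset X) (s : ℕ) :
    ∑ τ : Fin s → {T // T ∈ orb act J},
      ind act A (fun i => (τ i).1) * x ^ #(un fun i => (τ i).1) ≤ phi act x A J ^ s := by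
  classical
  induction s with
  | zero => simp [un, ind]
  | succ s ih =>
    rw [← (Fin.consEquiv fun _ => {T // T ∈ orb act J}).sum_comp, Fintype.sum_prod_type, sum_comm,
      pow_succ]
    refine le_trans ?_ (mul_le_mul_of_nonneg_right ih (sum_nonneg fun T _ => pow_nonneg hx0 _))
    rw [sum_mul]
    refine sum_le_sum fun τ _ => ?_
    set U := un fun i => (τ i).1
    by_cases hok : ∃ g, ∀ i, (τ i).1 ⊆ im act g A
    · have hτ : ind act A (fun i => (τ i).1) = 1 := if_pos hok
      obtain ⟨g, hg⟩ := hok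
      rw [hτ, one_mul, ← phi_im act x g, phi, mul_sum,
        ← sum_coe_sort (orb act J) fun T => x ^ #U * x ^ #(T \ im act g A)]
      refine sum_le_sum fun T _ => ?_
      have hU : U ⊆ im act g A := biUnion_subset.2 fun i _ => hg i
      have e : (un fun i => ((Fin.consEquiv fun _ => {T // T ∈ orb act J}) (T, τ) i).1) = T.1 ∪ U := by
        ext z; simp [U, un, Fin.exists_fin_succ, Fin.consEquiv]
      rw [e]
      have hc : #(T.1 ∪ U) = #U + #(T.1 \ U) := by
        rw [← card_union_of_disjoint disjoint_sdiff, union_sdiff_self_eq_union, union_comm]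
      rw [hc, pow_add]
      have hle : x ^ #(T.1 \ U) ≤ x ^ #(T.1 \ im act g A) :=
        pow_le_pow_of_le_one hx0 hx1 (card_le_card (sdiff_subset_sdiff subset_rfl hU))
      calc _ ≤ 1 * (x ^ #U * x ^ #(T.1 \ U)) := by
            refine mul_le_mul_of_nonneg_right ?_ (by positivity)
            unfold ind; split <;> norm_num
        _ ≤ _ := by rw [one_mul]; exact mul_le_mul_of_nonneg_left hle (by positivity)
    · have hτ : ind act A (fun i => (τ i).1) = 0 := if_neg hok
      rw [hτ, zero_mul, zero_mul]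
      refine le_of_eq (sum_eq_zero fun T _ => ?_)
      have : ind act A (fun i => ((Fin.consEquiv fun _ => {T // T ∈ orb act J}) (T, τ) i).1) = 0 :=
        if_neg fun ⟨g, hg⟩ => hok ⟨g, fun i => by simpa [Fin.consEquiv] using hg i.succ⟩
      rw [this, zero_mul]

/-- few tuples share a union -/
theorem union_count {q L : ℝ} (hq : 0 < q) (hL : 0 ≤ L) (hx : L * q ≤ 1) {A U : Finset X}
    (hA : Spr act q A) (hU : U ⊆ A) (J : Finset X) (s : ℕ) :
    (#((Fintype.piFinset fun _ : Fin s => copies act A J).filter fun τ => un τ = U) : ℝ) *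
      L ^ #U ≤ phi act (L * q) A J ^ s := by
  classical
  set Q := (Fintype.piFinset fun _ : Fin s => copies act A J).filter fun τ => un τ = U with hQ
  have hch : ∀ U' ∈ orb act U, ∃ g, im act g U = U' := fun U' h => by simpa [orb] using h
  choose g hg using hch
  have hmem : ∀ τ ∈ Q, ∀ i, τ i ∈ orb act J ∧ τ i ⊆ A := fun τ hτ i =>
    mem_filter.1 ((Fintype.mem_piFinset.1 (mem_filter.1 hτ).1) i)
  let F : {U' // U' ∈ orb act U} × {τ // τ ∈ Q} → (Fin s → {T // T ∈ orb act J}) := fun p i =>
    ⟨im act (g p.1.1 p.1.2) (p.2.1 i), im_mem_orb act (hmem _ p.2.2 i).1⟩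
  have hun : ∀ p, (un fun i => (F p i).1) = p.1.1 := by
    intro p
    refine Eq.trans ?_ (hg p.1.1 p.1.2)
    refine Eq.trans ?_ (congrArg (im act (g p.1.1 p.1.2)) (mem_filter.1 p.2.2).2)
    ext z
    simp [F, un, im]
  have hF : Function.Injective F := by
    rintro ⟨⟨a, ha⟩, ⟨τ, hτ⟩⟩ ⟨⟨b, hb⟩, ⟨σ, hσ⟩⟩ h
    have hab : a = b := by
      have e1 := hun (⟨a, ha⟩, ⟨τ, hτ⟩)
      rw [h, hun] at e1
      exact e1.symm
    subst hab
    have : τ = σ := funext fun i => im_injective act (g a ha) (congrArg Subtype.val (congrFun h i))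
    subst this
    rfl
  have hx0 : 0 ≤ L * q := by positivity
  have key : ∑ p, ind act A (fun i => (F p i).1) * (L * q) ^ #(un fun i => (F p i).1) =
      #(orb act U) * #Q * (L * q) ^ #U := by
    rw [sum_congr rfl fun p _ => ?_, sum_const, nsmul_eq_mul, card_univ, Fintype.card_prod,
      Fintype.card_coe, Fintype.card_coe, Nat.cast_mul]
    rw [hun p, card_of_mem_orb act p.1.2, ind,
      if_pos ⟨g p.1.1 p.1.2, fun i => (im_subset_im act).2 (hmem _ p.2.2 i).2⟩, one_mul]
  let w : (Fin s → {T // T ∈ orb act J}) → ℝ := fun τ =>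
    ind act A (fun i => (τ i).1) * (L * q) ^ #(un fun i => (τ i).1)
  have hw : ∀ τ, 0 ≤ w τ := fun τ =>
    mul_nonneg (by unfold ind; split <;> norm_num) (pow_nonneg hx0 _)
  have h0 : ∑ p, w (F p) ≤ ∑ τ, w τ := by
    rw [← sum_image hF.injOn]
    exact sum_le_univ_sum_of_nonneg hw
  have h1 := h0.trans (tuple_le act hx0 hx A J s)
  rw [key] at h1
  refine le_trans ?_ h1
  calc (#Q : ℝ) * L ^ #U = 1 * (#Q * L ^ #U) := (one_mul _).symm
    _ ≤ (#(orb act U) * q ^ #U) * (#Q * L ^ #U) :=
        mul_le_mul_of_nonneg_right (hA U hU) (by positivity)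
    _ = _ := by rw [mul_pow]; ring

theorem phi_le {q L C : ℝ} (hq : 0 < q) (hL : 0 ≤ L) (hC : 0 < C) (hx : L * q ≤ 1)
    (A J : Finset X) (hsub : ∀ I ⊂ J, pr act A I ≤ (C * q) ^ #I)
    (hbig : (C * q) ^ #J ≤ pr act A J) :
    phi act (L * q) A J ≤ #(copies act A J) * Real.exp (#J * L / C) := by
  classical
  set j := #J
  have hx0 : 0 ≤ L * q := by positivity
  have hC0 : 0 ≤ C * q := by positivity
  have hP := pr_nonneg act A J
  have h1 : ∑ I ∈ J.powerset, (1 - L * q) ^ #I * (L * q) ^ (j - #I) * pr act A I ≤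
      pr act A J + ((C * q + L * q) ^ j - (C * q) ^ j) := by
    have hbin : (C * q + L * q) ^ j = ∑ I ∈ J.powerset, (C * q) ^ #I * (L * q) ^ (j - #I) :=
      (sum_pow_mul_eq_add_pow _ _ J).symm
    rw [hbin, ← add_sum_erase _ _ (mem_powerset_self J), ← add_sum_erase _ _ (mem_powerset_self J)]
    rw [show j - #J = 0 from Nat.sub_self j, pow_zero, mul_one, mul_one]
    have hJ : (1 - L * q) ^ #J * pr act A J ≤ pr act A J :=
      mul_le_of_le_one_left hP (pow_le_one₀ (by linarith) (by linarith))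
    have hrest : ∑ I ∈ J.powerset.erase J, (1 - L * q) ^ #I * (L * q) ^ (j - #I) * pr act A I ≤
        ∑ I ∈ J.powerset.erase J, (C * q) ^ #I * (L * q) ^ (j - #I) := by
      refine sum_le_sum fun I hI => ?_
      obtain ⟨hne, hI⟩ := mem_erase.1 hI
      have hss : I ⊂ J := (mem_powerset.1 hI).ssubset_of_ne hne
      have hp : 0 ≤ pr act A I := pr_nonneg act A I
      calc _ ≤ 1 * (L * q) ^ (j - #I) * (C * q) ^ #I :=
            mul_le_mul (mul_le_mul_of_nonneg_right (pow_le_one₀ (by linarith) (by linarith))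
              (by positivity)) (hsub I hss) hp (by positivity)
        _ = _ := by ring
    linarith
  have h2 : pr act A J + ((C * q + L * q) ^ j - (C * q) ^ j) ≤
      pr act A J * (1 + L / C) ^ j := by
    have e : (C * q + L * q) ^ j = (C * q) ^ j * (1 + L / C) ^ j := by
      rw [← mul_pow]; congr 1; field_simp
    have h1le : 1 ≤ (1 + L / C) ^ j := one_le_pow₀ (by have : 0 ≤ L / C := (by positivity); linarith)
    rw [e]
    nlinarith [mul_le_mul_of_nonneg_right hbig (sub_nonneg.2 h1le)]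
  have h3 : (1 + L / C) ^ j ≤ Real.exp (j * L / C) := by
    rw [mul_div_assoc, Real.exp_nat_mul]
    exact pow_le_pow_left₀ (by positivity) (by linarith [Real.add_one_le_exp (L / C)]) j
  rw [phi_eq, card_copies, mul_assoc]
  exact mul_le_mul_of_nonneg_left
    (h1.trans (h2.trans (mul_le_mul_of_nonneg_left h3 hP))) (Nat.cast_nonneg _)

/-- the constant: `1280 (1 + H_e)` -/
noncomputable def Cbd (e : ℕ) : ℝ := 1280 * (1 + harmonic e)

theorem Cbd_succ (e : ℕ) : Cbd (e + 1) = Cbd e + 1280 / (e + 1) := by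
  simp [Cbd, harmonic_succ]; ring

theorem le_Cbd (e : ℕ) : 1280 ≤ Cbd e := by
  induction e with
  | zero => simp [Cbd]
  | succ e ih =>
    rw [Cbd_succ]
    have : (0 : ℝ) ≤ 1280 / ((e : ℝ) + 1) := by positivity
    linarith

theorem card_short {A : Finset X} {𝒩 : Finset (Finset X)} {e s : ℕ} (hcard : #A = e + 1) {p : ℝ}
    (hp1 : p ≤ 1) (hs : 2 ≤ p * s)
    (hdeg : ∀ y ∈ A, (#(𝒩.filter fun T => y ∉ T) : ℝ) ≤ (1 - p) * #𝒩) :
    (#((Fintype.piFinset fun _ : Fin s => 𝒩).filter fun τ => #(un τ) * 2 < e + 1) : ℝ) ≤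
      (#𝒩 : ℝ) ^ s / 2 := by
  classical
  set N : ℝ := (#𝒩 : ℝ)
  have hN : 0 ≤ N := Nat.cast_nonneg _
  set Ω := Fintype.piFinset fun _ : Fin s => 𝒩 with hΩ
  have hp : (1 - p) ^ s ≤ 1 / 4 := by
    calc (1 - p) ^ s ≤ Real.exp (-p) ^ s :=
          pow_le_pow_left₀ (by linarith) (by linarith [Real.add_one_le_exp (-p)]) s
      _ = Real.exp (-(p * s)) := by rw [← Real.exp_nat_mul]; ring_nf
      _ ≤ Real.exp (-2) := Real.exp_le_exp.2 (by linarith)
      _ ≤ 1 / 4 := by
        rw [show (-2 : ℝ) = -1 + -1 by norm_num, Real.exp_add, Real.exp_neg]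
        have := Real.exp_one_gt_two
        rw [← mul_inv, inv_le_comm₀ (by positivity) (by norm_num)]
        nlinarith
  have hmiss : ∀ y ∈ A, (#(Ω.filter fun τ => y ∉ un τ) : ℝ) ≤ N ^ s / 4 := by
    intro y hy
    have e1 : Ω.filter (fun τ => y ∉ un τ) =
        Fintype.piFinset fun _ : Fin s => 𝒩.filter fun T => y ∉ T := by
      ext τ; simp [hΩ, un, forall_and]
    rw [e1, Fintype.card_piFinset, prod_const, card_univ, Fintype.card_fin, Nat.cast_pow]
    calc _ ≤ ((1 - p) * N) ^ s := pow_le_pow_left₀ (Nat.cast_nonneg _) (hdeg y hy) s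
      _ ≤ N ^ s / 4 := by
        rw [mul_pow]
        linarith [mul_le_mul_of_nonneg_right hp (pow_nonneg hN s)]
  set B := Ω.filter fun τ => #(un τ) * 2 < e + 1 with hBdef
  have h1 : ∑ τ ∈ B, (#(A.filter fun y => y ∉ un τ) : ℝ) ≤ ((e : ℝ) + 1) * (N ^ s / 4) := by
    calc ∑ τ ∈ B, (#(A.filter fun y => y ∉ un τ) : ℝ)
        ≤ ∑ τ ∈ Ω, (#(A.filter fun y => y ∉ un τ) : ℝ) :=
          sum_le_sum_of_subset_of_nonneg (filter_subset _ _) fun _ _ _ => Nat.cast_nonneg _
      _ = ∑ y ∈ A, (#(Ω.filter fun τ => y ∉ un τ) : ℝ) := by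
          simp only [← sum_boole]
          exact sum_comm
      _ ≤ ∑ _y ∈ A, N ^ s / 4 := sum_le_sum hmiss
      _ = _ := by rw [sum_const, nsmul_eq_mul, hcard]; push_cast; ring
  have h2 : (#B : ℝ) * (((e : ℝ) + 1) / 2) ≤ ∑ τ ∈ B, (#(A.filter fun y => y ∉ un τ) : ℝ) := by
    rw [← nsmul_eq_mul]
    refine card_nsmul_le_sum _ _ _ fun τ hτ => ?_
    have hlt := (mem_filter.1 hτ).2
    have hle : #A ≤ #(un τ) + #(A.filter fun y => y ∉ un τ) := by
      rw [← sdiff_eq_filter]
      have := card_le_card (subset_union_left : A ⊆ A ∪ un τ)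
      have h' := card_sdiff_add_card A (un τ)
      omega
    have h3 : ((e + 1 : ℕ) : ℝ) ≤ (2 * #(A.filter fun y => y ∉ un τ) : ℕ) :=
      Nat.cast_le.2 (by omega)
    push_cast at h3
    linarith
  have he : (0 : ℝ) < (e : ℝ) + 1 := by positivity
  nlinarith

theorem half_tuples {q : ℝ} (hq : 0 < q) (hx : 64 * q ≤ 1) {e s : ℕ} {A J : Finset X}
    (hcard : #A = e + 1) (hA : Spr act q A) {C : ℝ} (hC : 1280 ≤ C)
    (hsub : ∀ I ⊂ J, pr act A I ≤ (C * q) ^ #I) (hbig : (C * q) ^ #J ≤ pr act A J) {p : ℝ}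
    (hp0 : 0 < p) (hp1 : p ≤ 1) (hs : 2 ≤ p * s)
    (hdeg : ∀ y ∈ A, (#((copies act A J).filter fun T => y ∉ T) : ℝ) ≤
      (1 - p) * #(copies act A J)) :
    (#(copies act A J) : ℝ) ^ s / 2 ≤ 2 ^ (e + 1) * ((1 / 8) ^ (e + 1) *
      (#(copies act A J) * Real.exp (#J * 64 / C)) ^ s) := by
  classical
  set 𝒩 := copies act A J
  set Φ : ℝ := (#𝒩 : ℝ) * Real.exp (#J * 64 / C)
  set Ω := Fintype.piFinset fun _ : Fin s => 𝒩 with hΩ
  set B := Ω.filter fun τ => #(un τ) * 2 < e + 1 with hBdef
  have hB := card_short hcard hp1 hs hdeg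
  have hφ : phi act (64 * q) A J ≤ Φ :=
    phi_le act hq (by norm_num) (by linarith) hx A J hsub hbig
  have hφ0 : 0 ≤ phi act (64 * q) A J := sum_nonneg fun _ _ => by positivity
  set P := A.powerset.filter fun U => e + 1 ≤ #U * 2 with hP
  have hsubP : ∀ τ ∈ Ω \ B, un τ ∈ P := by
    intro τ hτ
    simp only [hBdef, mem_sdiff, mem_filter, not_and, not_lt] at hτ
    refine mem_filter.2 ⟨mem_powerset.2 (biUnion_subset.2 fun i _ => ?_), hτ.2 hτ.1⟩
    exact (mem_filter.1 (Fintype.mem_piFinset.1 hτ.1 i)).2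
  have hrest : (#(Ω \ B) : ℝ) ≤ 2 ^ (e + 1) * ((1 / 8) ^ (e + 1) * Φ ^ s) := by
    rw [card_eq_sum_card_fiberwise (f := un) (t := P) hsubP, Nat.cast_sum]
    calc ∑ U ∈ P, (#((Ω \ B).filter fun τ => un τ = U) : ℝ)
        ≤ ∑ _U ∈ P, (1 / 8) ^ (e + 1) * Φ ^ s := by
          refine sum_le_sum fun U hU => ?_
          obtain ⟨hUA, hUc⟩ := mem_filter.1 hU
          have hq' := union_count act hq (by norm_num : (0 : ℝ) ≤ 64) hx hA (mem_powerset.1 hUA) J s
          have h8 : (8 : ℝ) ^ (e + 1) ≤ 64 ^ #U := by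
            rw [show (64 : ℝ) = 8 ^ 2 by norm_num, ← pow_mul, mul_comm 2]
            exact pow_le_pow_right₀ (by norm_num) hUc
          have hle : (#((Ω \ B).filter fun τ => un τ = U) : ℝ) ≤ #(Ω.filter fun τ => un τ = U) :=
            Nat.cast_le.2 (card_le_card (filter_subset_filter _ sdiff_subset))
          rw [div_pow, one_pow, div_mul_eq_mul_div, one_mul, le_div_iff₀ (by positivity)]
          exact (mul_le_mul hle h8 (by positivity) (Nat.cast_nonneg _)).trans
            (hq'.trans (pow_le_pow_left₀ hφ0 hφ s))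
      _ ≤ _ := by
          rw [sum_const, nsmul_eq_mul]
          refine mul_le_mul_of_nonneg_right ?_ (by positivity)
          have : #P ≤ 2 ^ (e + 1) := by
            rw [← hcard, ← card_powerset]; exact card_filter_le _ _
          exact_mod_cast this
  have hΩc : (#Ω : ℝ) = (#𝒩 : ℝ) ^ s := by simp [hΩ]
  rw [cast_card_sdiff (filter_subset _ _), hΩc] at hrest
  linarith

theorem no_excess {q : ℝ} (hq : 0 < q) (hx : 64 * q ≤ 1) {e : ℕ} {A J : Finset X}
    (hcard : #A = e + 1) (hA : Spr act q A)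
    (hsub : ∀ I ⊂ J, pr act A I ≤ (Cbd (e + 1) * q) ^ #I)
    (hdel : ∀ y ∈ A, pr act (A.erase y) J ≤ (Cbd e * q) ^ #J) (hJ : J.Nonempty) :
    pr act A J ≤ (Cbd (e + 1) * q) ^ #J := by
  classical
  by_contra hbig
  push Not at hbig
  set C := Cbd (e + 1) with hCdef
  set j := #J
  set 𝒩 := copies act A J with h𝒩
  set N : ℝ := (#𝒩 : ℝ) with hNdef
  have hC : 1280 ≤ C := le_Cbd _
  have hO : (0 : ℝ) < #(orb act J) := by exact_mod_cast orb_card_pos act J
  have hpos : 0 < pr act A J := lt_of_le_of_lt (by positivity) hbig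
  have hN : 0 < N := by rw [hNdef, card_copies]; exact mul_pos hO hpos
  have hj1 : (1 : ℝ) ≤ j := by exact_mod_cast hJ.card_pos
  have hje : (j : ℝ) ≤ e + 1 := by
    have := card_le_of_pr_pos act hpos.ne'
    rw [hcard] at this
    exact_mod_cast this
  set a : ℝ := 1280 / ((e : ℝ) + 1) / C with hadef
  have ha0 : 0 < a := by positivity
  have hja : j * a ≤ 1 := by
    have h1 : a ≤ 1 / ((e : ℝ) + 1) := by
      rw [hadef, div_le_iff₀ (by linarith), div_mul_eq_mul_div, one_mul]
      gcongr
    calc (j : ℝ) * a ≤ ((e : ℝ) + 1) * (1 / ((e : ℝ) + 1)) :=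
          mul_le_mul hje h1 ha0.le (by positivity)
      _ = 1 := by field_simp
  have ha1 : a ≤ 1 := le_trans (le_mul_of_one_le_left ha0.le hj1) hja
  have hCa : Cbd e = C * (1 - a) := by
    have h1 : C * a = 1280 / ((e : ℝ) + 1) := by
      rw [hadef, mul_div_cancel₀]
      linarith
    have h2 : C = Cbd e + 1280 / ((e : ℝ) + 1) := by rw [hCdef, Cbd_succ]
    rw [mul_sub, mul_one, h1]
    linarith
  set p : ℝ := j * a / 2 with hpdef
  have hp0 : 0 < p := by positivity
  have hdeg : ∀ y ∈ A, (#(𝒩.filter fun T => y ∉ T) : ℝ) ≤ (1 - p) * N := by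
    intro y hy
    have e1 : 𝒩.filter (fun T => y ∉ T) = copies act (A.erase y) J := by
      ext T
      simp only [h𝒩, copies, mem_filter, Finset.subset_erase]
      tauto
    have hb : (1 - a) ^ j * (1 + j * a) ≤ 1 := by
      calc (1 - a) ^ j * (1 + j * a) ≤ (1 - a) ^ j * (1 + a) ^ j :=
            mul_le_mul_of_nonneg_left (one_add_mul_le_pow (by linarith) j)
              (pow_nonneg (by linarith) _)
        _ = (1 - a ^ 2) ^ j := by rw [← mul_pow]; ring
        _ ≤ 1 := pow_le_one₀ (by nlinarith) (by nlinarith)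
    have hb2 : (1 - a) ^ j ≤ 1 - p := by
      have h0 : 0 ≤ (1 - a) ^ j := pow_nonneg (by linarith) _
      rw [hpdef]
      nlinarith [mul_le_mul_of_nonneg_left hb (show (0 : ℝ) ≤ 1 - j * a / 2 by linarith)]
    rw [e1, card_copies, hNdef, card_copies]
    calc (#(orb act J) : ℝ) * pr act (A.erase y) J
        ≤ #(orb act J) * ((1 - a) ^ j * pr act A J) := by
          refine mul_le_mul_of_nonneg_left ((hdel y hy).trans ?_) hO.le
          rw [hCa, mul_right_comm, mul_pow, mul_comm]
          exact mul_le_mul_of_nonneg_left hbig.le (pow_nonneg (by linarith) _)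
      _ ≤ #(orb act J) * ((1 - p) * pr act A J) :=
          mul_le_mul_of_nonneg_left (mul_le_mul_of_nonneg_right hb2 hpos.le) hO.le
      _ = _ := by ring
  set s := ⌈2 / p⌉₊ with hsdef
  have hs' : 2 ≤ p * s := by
    have := Nat.le_ceil (2 / p)
    rw [div_le_iff₀ hp0] at this
    linarith
  have hrest := half_tuples act (J := J) hq hx hcard hA hC hsub hbig.le hp0 (by
    rw [hpdef]; linarith) hs' hdeg
  have hexp : Real.exp (j * 64 / C) ^ s ≤ Real.exp (1 / 4) ^ (e + 1) := by
    rw [← Real.exp_nat_mul, ← Real.exp_nat_mul]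
    refine Real.exp_le_exp.2 ?_
    have h1 : (s : ℝ) ≤ 2 / p + 1 := (Nat.ceil_lt_add_one (by positivity)).le
    have h5 : (s : ℝ) * (j * a) ≤ 5 := by
      have : (s : ℝ) * (j * a) ≤ (2 / p + 1) * (j * a) :=
        mul_le_mul_of_nonneg_right h1 (by positivity)
      rw [show (2 / p + 1) * (j * a) = 4 + j * a by rw [hpdef]; field_simp; ring] at this
      linarith
    have h6 : (j : ℝ) * 64 / C = j * a * (((e : ℝ) + 1) / 20) := by
      rw [hadef]; field_simp; ring
    rw [h6, ← mul_assoc]
    push_cast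
    nlinarith [mul_le_mul_of_nonneg_right h5 (show (0 : ℝ) ≤ ((e : ℝ) + 1) / 20 by positivity)]
  have hfin : (2 : ℝ) ^ (e + 1) * ((1 / 8) ^ (e + 1) * Real.exp (1 / 4) ^ (e + 1)) ≤ 1 / 3 := by
    rw [← mul_pow, ← mul_pow]
    have h43 : Real.exp (1 / 4) ≤ 4 / 3 := by
      have := Real.add_one_le_exp (-(1 / 4) : ℝ)
      rw [Real.exp_neg] at this
      have hpos' := Real.exp_pos (1 / 4)
      rw [le_inv_comm₀ (by norm_num) hpos'] at this
      linarith
    have hb : (2 : ℝ) * (1 / 8 * Real.exp (1 / 4)) ≤ 1 / 3 := by linarith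
    calc _ ≤ (1 / 3 : ℝ) ^ (e + 1) :=
          pow_le_pow_left₀ (by positivity) hb _
      _ ≤ 1 / 3 := pow_le_of_le_one (by norm_num) (by norm_num) (by omega)
  have hNs : 0 < N ^ s := pow_pos hN s
  have : N ^ s / 2 ≤ N ^ s / 3 := by
    calc N ^ s / 2 ≤ _ := hrest
      _ ≤ 2 ^ (e + 1) * ((1 / 8) ^ (e + 1) * (N ^ s * Real.exp (1 / 4) ^ (e + 1))) := by
          rw [mul_pow]; gcongr
      _ = N ^ s * (2 ^ (e + 1) * ((1 / 8) ^ (e + 1) * Real.exp (1 / 4) ^ (e + 1))) := by ring
      _ ≤ N ^ s * (1 / 3) := mul_le_mul_of_nonneg_left hfin hNs.le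
      _ = _ := by ring
  linarith

/-- **The peeling bound.** -/
theorem pr_le {q : ℝ} (hq : 0 < q) : ∀ (e : ℕ) (A : Finset X), #A ≤ e → Spr act q A →
    ∀ J : Finset X, pr act A J ≤ (Cbd e * q) ^ #J := by
  intro e
  induction e with
  | zero =>
    intro A hA _ J
    by_cases h : pr act A J = 0
    · rw [h]; have := le_Cbd 0; positivity
    · have := card_le_of_pr_pos act h
      rw [show #J = 0 by omega, pow_zero]; exact pr_le_one act A J
  | succ e ih =>
    intro A hA hS J
    have hCq : 1280 * q ≤ Cbd (e + 1) * q := mul_le_mul_of_nonneg_right (le_Cbd _) hq.le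
    rcases Nat.lt_or_ge #A (e + 1) with hlt | hge
    · refine (ih A (by omega) hS J).trans (pow_le_pow_left₀ ?_ ?_ _)
      · have := le_Cbd e; positivity
      · refine mul_le_mul_of_nonneg_right ?_ hq.le
        rw [Cbd_succ]
        have : (0 : ℝ) ≤ 1280 / ((e : ℝ) + 1) := by positivity
        linarith
    · rcases lt_or_ge (1 : ℝ) (64 * q) with hx | hx
      · exact (pr_le_one act A J).trans (one_le_pow₀ (by linarith))
      · induction J using Finset.strongInduction with
        | H J ihJ =>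
          rcases J.eq_empty_or_nonempty with rfl | hJ
          · simpa using pr_le_one act A ∅
          · exact no_excess act hq hx (by omega) hS ihJ
              (fun y hy => ih _ (by rw [card_erase_of_mem hy]; omega)
                (fun S hS' => hS S (hS'.trans (erase_subset _ _))) J) hJ

end Vale.Agent.P064
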