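import Mathlib

/-!
A spread family is contained in a random set of density `ν log h` (fragment argument).
-/

namespace Vale.Agent.P064

open Finset

set_option linter.unusedSectionVars false

variable {X : Type*} [DecidableEq X]

/-- expectation over the random subset of `s` of density `ρ` -/
noncomputable def ev (s : Finset X) (ρ : ℝ) (f : Finset X → ℝ) : ℝ :=
  ∑ W ∈ s.powerset, ρ ^ #W * (1 - ρ) ^ #(s \ W) * f W

theorem ev_insert {s : Finset X} {x : X} (hx : x ∉ s) (ρ : ℝ) (f : Finset X → ℝ) :
    ev (insert x s) ρ f = (1 - ρ) * ev s ρ f + ρ * ev s ρ fun W => f (insert x W) := by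
  unfold ev
  rw [sum_powerset_insert hx, mul_sum, mul_sum]
  congr 1 <;> refine sum_congr rfl fun W hW => ?_
  · rw [mem_powerset] at hW
    rw [insert_sdiff_of_notMem _ (fun h => hx (hW h)),
      card_insert_of_notMem (fun h => hx (sdiff_subset h)), pow_succ]
    ring
  · rw [mem_powerset] at hW
    have : insert x s \ insert x W = s \ W := by
      ext y
      simp only [mem_sdiff, mem_insert]
      constructor
      · rintro ⟨h1 | h1, h2⟩ <;> tauto
      · rintro ⟨h1, h2⟩
        exact ⟨Or.inr h1, fun h => h.elim (fun e => hx (e ▸ h1)) h2⟩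
    rw [this, card_insert_of_notMem (fun h => hx (hW h)), pow_succ]
    ring

theorem ev_const (s : Finset X) (ρ c : ℝ) : ev s ρ (fun _ => c) = c := by
  induction s using Finset.induction with
  | empty => simp [ev]
  | insert x s hx ih => rw [ev_insert hx, ih]; ring

theorem ev_add (s : Finset X) (ρ : ℝ) (f g : Finset X → ℝ) :
    ev s ρ (fun W => f W + g W) = ev s ρ f + ev s ρ g := by
  simp [ev, mul_add, sum_add_distrib]

theorem ev_mul (s : Finset X) (ρ c : ℝ) (f : Finset X → ℝ) :
    ev s ρ (fun W => c * f W) = c * ev s ρ f := by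
  simp [ev, mul_sum]; congr 1; ext W; ring

theorem ev_mono {s : Finset X} {ρ : ℝ} (h0 : 0 ≤ ρ) (h1 : ρ ≤ 1) {f g : Finset X → ℝ}
    (h : ∀ W, f W ≤ g W) : ev s ρ f ≤ ev s ρ g :=
  sum_le_sum fun W _ => mul_le_mul_of_nonneg_left (h W)
    (mul_nonneg (pow_nonneg h0 _) (pow_nonneg (sub_nonneg.2 h1) _))

theorem ev_union (s : Finset X) (a b : ℝ) (f : Finset X → ℝ) :
    ev s a (fun V => ev s b fun W => f (V ∪ W)) = ev s (1 - (1 - a) * (1 - b)) f := by
  induction s using Finset.induction generalizing f with
  | empty => simp [ev]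
  | insert x s hx ih =>
    simp only [ev_insert hx]
    simp only [ev_add, ev_mul, insert_union, union_insert, insert_idem]
    rw [ih f, ih fun W => f (insert x W)]
    ring

/-- decreasing functions have smaller mean at larger density -/
theorem ev_antitone {s : Finset X} {a b : ℝ} (ha : 0 ≤ a) (hab : a ≤ b) (hb : b ≤ 1)
    {f : Finset X → ℝ} (hf : ∀ V W, V ⊆ W → f W ≤ f V) : ev s b f ≤ ev s a f := by
  rcases eq_or_lt_of_le (hab.trans hb) with h | h
  · rw [show b = a by linarith]
  · set c := (b - a) / (1 - a) with hc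
    have hc0 : 0 ≤ c := div_nonneg (by linarith) (by linarith)
    have hc1 : c ≤ 1 := (div_le_one (by linarith)).2 (by linarith)
    have e : b = 1 - (1 - a) * (1 - c) := by
      have : (1 - a) * c = b - a := by rw [hc]; field_simp
      linarith
    rw [e, ← ev_union]
    refine ev_mono ha (by linarith) fun V => ?_
    calc ev s c (fun W => f (V ∪ W)) ≤ ev s c fun _ => f V :=
          ev_mono hc0 hc1 fun W => hf V _ subset_union_left
      _ = f V := ev_const s c _

variable [Fintype X] {ι : Type*} [DecidableEq ι]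

/-- indicator of containing no member -/
noncomputable def fail (I : Finset ι) (S : ι → Finset X) (W : Finset X) : ℝ :=
  if ∀ i ∈ I, ¬S i ⊆ W then 1 else 0

theorem fail_le_one (I : Finset ι) (S : ι → Finset X) (W : Finset X) : fail I S W ≤ 1 := by
  unfold fail; split <;> norm_num

theorem fail_nonneg (I : Finset ι) (S : ι → Finset X) (W : Finset X) : 0 ≤ fail I S W := by
  unfold fail; split <;> norm_num

variable (I : Finset ι) (S : ι → Finset X)

theorem exists_frag (W : Finset X) {i : ι} (hi : i ∈ I) :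
    ∃ j ∈ I, S j ⊆ W ∪ S i ∧ ∀ k ∈ I, S k ⊆ W ∪ S i → #(S j \ W) ≤ #(S k \ W) := by
  obtain ⟨j, hj, hmin⟩ := exists_min_image (I.filter fun k => S k ⊆ W ∪ S i)
    (fun k => #(S k \ W)) ⟨i, mem_filter.2 ⟨hi, subset_union_right⟩⟩
  obtain ⟨hjI, hjs⟩ := mem_filter.1 hj
  exact ⟨j, hjI, hjs, fun k hk hks => hmin k (mem_filter.2 ⟨hk, hks⟩)⟩

/-- the fragment left by `W` of the `i`th member -/
noncomputable def frag (W : Finset X) (i : ι) : Finset X :=
  if h : i ∈ I then S (exists_frag I S W h).choose \ W else ∅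

theorem frag_subset (W : Finset X) (i : ι) : frag I S W i ⊆ S i := by
  unfold frag
  split
  · rename_i h
    obtain ⟨_, hs, _⟩ := (exists_frag I S W h).choose_spec
    exact fun x hx => by
      have := hs (mem_sdiff.1 hx).1
      simp only [mem_union] at this
      exact this.resolve_left (mem_sdiff.1 hx).2
  · exact empty_subset _

theorem frag_disjoint (W : Finset X) (i : ι) : Disjoint (frag I S W i) W := by
  unfold frag
  split
  · exact sdiff_disjoint
  · exact disjoint_empty_left _

theorem frag_member (W : Finset X) {i : ι} (hi : i ∈ I) :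
    ∃ j ∈ I, S j ⊆ W ∪ frag I S W i := by
  obtain ⟨hj, hs, _⟩ := (exists_frag I S W hi).choose_spec
  refine ⟨_, hj, ?_⟩
  rw [frag, dif_pos hi, union_sdiff_self_eq_union]
  exact subset_union_right

theorem frag_recover (W : Finset X) {i : ι} (hi : i ∈ I) {k : ι} (hk : k ∈ I)
    (hsub : S k ⊆ W ∪ frag I S W i) : frag I S W i ⊆ S k := by
  obtain ⟨_, _, hmin⟩ := (exists_frag I S W hi).choose_spec
  have h1 : S k ⊆ W ∪ S i := hsub.trans (union_subset_union subset_rfl (frag_subset I S W i))
  have h2 : S k \ W ⊆ frag I S W i := fun x hx =>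
    (mem_union.1 (hsub (mem_sdiff.1 hx).1)).resolve_left (mem_sdiff.1 hx).2
  have h3 := hmin k hk h1
  rw [show S (exists_frag I S W hi).choose \ W = frag I S W i by rw [frag, dif_pos hi]] at h3
  exact (eq_of_subset_of_card_le h2 h3) ▸ sdiff_subset

variable {I S}

theorem bad_le {ν M : ℝ} (hν : 0 < ν) (hρ : 256 * ν ≤ 1) (hM : 0 ≤ M) {h : ℕ}
    (hsize : ∀ i ∈ I, #(S i) ≤ h)
    (hspr : ∀ A, (#(I.filter fun i => A ⊆ S i) : ℝ) ≤ ν ^ #A * M) :
    ev univ (256 * ν) (fun W => (#(I.filter fun i => h / 2 < #(frag I S W i)) : ℝ)) ≤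
      M * ((1 / 8) ^ h / 16) := by
  classical
  set ρ := 256 * ν
  have hρ0 : 0 < ρ := by positivity
  let w : Finset X → ℝ := fun W => ρ ^ #W * (1 - ρ) ^ #(univ \ W)
  have hw : ∀ W, 0 ≤ w W := fun W => mul_nonneg (by positivity) (pow_nonneg (by linarith) _)
  let cand : Finset X → Finset (Finset X) := fun Z =>
    if hZ : ∃ j ∈ I, S j ⊆ Z then
      (S hZ.choose).powerset.filter fun T => h / 2 < #T ∧ T ⊆ Z else ∅
  let P : Finset (Finset X × ι) :=
    ((univ : Finset X).powerset ×ˢ I).filter fun p => h / 2 < #(frag I S p.1 p.2)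
  let Q : Finset (Finset X × Finset X × ι) :=
    ((univ : Finset (Finset X)) ×ˢ (univ : Finset (Finset X)) ×ˢ I).filter
      fun z => z.2.1 ∈ cand z.1 ∧ z.2.1 ⊆ S z.2.2
  let Φ : Finset X × ι → Finset X × Finset X × ι := fun p =>
    (p.1 ∪ frag I S p.1 p.2, frag I S p.1 p.2, p.2)
  have hback : ∀ p : Finset X × ι, (Φ p).1 \ (Φ p).2.1 = p.1 := fun p => by
    have := frag_disjoint I S p.1 p.2
    simp only [Φ]
    rw [union_sdiff_right]
    exact Finset.sdiff_eq_self_of_disjoint this.symm
  have hinj : Set.InjOn Φ P := fun p _ p' _ e => Prod.ext (by rw [← hback p, ← hback p', e])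
    (congrArg (fun z => z.2.2) e)
  have hmaps : ∀ p ∈ P, Φ p ∈ Q := by
    intro p hp
    simp only [P, mem_filter, mem_product] at hp
    obtain ⟨⟨_, hi⟩, ht⟩ := hp
    have hZ : ∃ j ∈ I, S j ⊆ p.1 ∪ frag I S p.1 p.2 := frag_member I S p.1 hi
    simp only [Q, Φ, mem_filter, mem_product, mem_univ, true_and]
    refine ⟨hi, ?_, frag_subset I S p.1 p.2⟩
    simp only [cand, dif_pos hZ, mem_filter, mem_powerset]
    exact ⟨frag_recover I S p.1 hi hZ.choose_spec.1 hZ.choose_spec.2, ht, subset_union_right⟩
  calc ev univ ρ (fun W => (#(I.filter fun i => h / 2 < #(frag I S W i)) : ℝ))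
      = ∑ p ∈ P, w p.1 := by
        simp only [P, sum_filter, sum_product, ev, ← sum_boole, mul_sum]
        refine sum_congr rfl fun W _ => sum_congr rfl fun i _ => ?_
        split <;> simp [w]
    _ = ∑ z ∈ P.image Φ, w (z.1 \ z.2.1) := by
        rw [sum_image hinj]; exact sum_congr rfl fun p _ => by rw [hback]
    _ ≤ ∑ z ∈ Q, w (z.1 \ z.2.1) :=
        sum_le_sum_of_subset_of_nonneg (image_subset_iff.2 hmaps) fun _ _ _ => hw _
    _ ≤ ∑ Z : Finset X, ∑ T ∈ cand Z, (#(I.filter fun i => T ⊆ S i) : ℝ) * w (Z \ T) := by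
        refine le_of_eq ?_
        simp only [Q, sum_filter, sum_product]
        refine sum_congr rfl fun Z _ => ?_
        rw [← sum_subset (subset_univ (cand Z)) (fun T _ hT => by simp [hT])]
        refine sum_congr rfl fun T hT => ?_
        simp only [hT, true_and, ← sum_boole, sum_mul]
        exact sum_congr rfl fun i _ => by split <;> simp
    _ ≤ ∑ Z : Finset X, ∑ T ∈ cand Z, M * w Z * (1 / 256) ^ #T := by
        refine sum_le_sum fun Z _ => sum_le_sum fun T hT => ?_
        have hTZ : T ⊆ Z := by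
          simp only [cand] at hT
          split at hT
          · exact (mem_filter.1 hT).2.2
          · simp at hT
        have hc1 : #(Z \ T) + #T = #Z := card_sdiff_add_card_eq_card hTZ
        have hc2 : #(univ \ (Z \ T)) = #(univ \ Z) + #T := by
          rw [card_univ_sdiff, card_univ_sdiff]
          have := card_le_univ Z
          omega
        have e : ν ^ #T * w (Z \ T) ≤ w Z * (1 / 256) ^ #T := by
          simp only [w, hc2, pow_add]
          rw [← hc1, pow_add]
          calc ν ^ #T * (ρ ^ #(Z \ T) * ((1 - ρ) ^ #(univ \ Z) * (1 - ρ) ^ #T))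
              ≤ ν ^ #T * (ρ ^ #(Z \ T) * ((1 - ρ) ^ #(univ \ Z) * 1)) := by
                have h1 : (1 - ρ) ^ #T ≤ 1 := pow_le_one₀ (by linarith) (by linarith)
                have h2 : 0 ≤ (1 - ρ) ^ #(univ \ Z) := pow_nonneg (by linarith) _
                gcongr
            _ = _ := by
                have : ρ ^ #T * (1 / 256) ^ #T = ν ^ #T := by
                  rw [← mul_pow]; congr 1; simp only [ρ]; ring
                rw [← this]; ring
        calc _ ≤ ν ^ #T * M * w (Z \ T) := mul_le_mul_of_nonneg_right (hspr T) (hw _)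
          _ = M * (ν ^ #T * w (Z \ T)) := by ring
          _ ≤ M * (w Z * (1 / 256) ^ #T) := mul_le_mul_of_nonneg_left e hM
          _ = _ := by ring
    _ ≤ ∑ Z : Finset X, M * w Z * ((1 / 8) ^ h / 16) := by
        refine sum_le_sum fun Z _ => ?_
        rw [← mul_sum]
        refine mul_le_mul_of_nonneg_left ?_ (mul_nonneg hM (hw Z))
        have hcard : #(cand Z) ≤ 2 ^ h := by
          simp only [cand]
          split
          · rename_i hZ
            refine (card_filter_le _ _).trans ?_
            rw [card_powerset]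
            exact Nat.pow_le_pow_right (by norm_num) (hsize _ hZ.choose_spec.1)
          · simp
        calc ∑ T ∈ cand Z, (1 / 256 : ℝ) ^ #T ≤ ∑ _T ∈ cand Z, (1 / 16) ^ (h + 1) := by
              refine sum_le_sum fun T hT => ?_
              have ht : h / 2 < #T := by
                simp only [cand] at hT
                split at hT
                · exact (mem_filter.1 hT).2.1
                · simp at hT
              rw [show (1 / 256 : ℝ) = (1 / 16) ^ 2 by norm_num, ← pow_mul]
              exact pow_le_pow_of_le_one (by norm_num) (by norm_num) (by omega)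
          _ = #(cand Z) * (1 / 16) ^ (h + 1) := by rw [sum_const, nsmul_eq_mul]
          _ ≤ (2 : ℝ) ^ h * (1 / 16) ^ (h + 1) := by gcongr; exact_mod_cast hcard
          _ = (1 / 8) ^ h / 16 := by
            rw [pow_succ, ← mul_assoc, ← mul_pow]; norm_num; ring
    _ = _ := by
        have : ∑ Z : Finset X, w Z = 1 := by
          have := ev_const (univ : Finset X) ρ 1
          simpa [ev, w, powerset_univ] using this
        rw [← sum_mul, ← mul_sum, this, mul_one]

/-- the density used for members of size at most `h` -/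
noncomputable def den (ν : ℝ) (h : ℕ) : ℝ := 1 - (1 - 256 * ν) ^ h.size

theorem size_half {h : ℕ} (hh : h ≠ 0) : h.size = (h / 2).size + 1 := by
  conv_lhs => rw [← Nat.bit_bodd_div2 h]
  rw [Nat.size_bit (by rwa [Nat.bit_bodd_div2])]
  rw [Nat.div2_val]

theorem fail_le {ν M : ℝ} (hν : 0 < ν) (hρ : 256 * ν ≤ 1) (hM : 0 ≤ M) :
    ∀ (h : ℕ) (I : Finset ι) (S : ι → Finset X), (∀ i ∈ I, #(S i) ≤ h) →
      (∀ A, (#(I.filter fun i => A ⊆ S i) : ℝ) ≤ ν ^ #A * M) →
        #I * ev univ (den ν h) (fail I S) ≤ (1 - (1 / 8) ^ h) / 4 * M := by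
  intro h
  induction h using Nat.strong_induction_on with
  | _ h ih =>
  intro I S hsize hspr
  rcases Nat.eq_zero_or_pos h with rfl | hh
  · rcases I.eq_empty_or_nonempty with rfl | ⟨i, hi⟩
    · simp
    · have : fail I S = fun _ => 0 := funext fun W => if_neg fun hall =>
        hall i hi (by rw [card_eq_zero.1 (Nat.le_zero.1 (hsize i hi))]; exact empty_subset W)
      rw [this, ev_const]; simp
  · classical
    set ρ := 256 * ν
    have hρ0 : 0 ≤ ρ := by positivity
    set h' := h / 2
    have hh' : h' < h := Nat.div_lt_self hh (by norm_num)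
    have hd0 : 0 ≤ den ν h' := sub_nonneg.2 (pow_le_one₀ (by linarith) (by linarith))
    have hd1 : den ν h' ≤ 1 := by
      simp only [den, sub_le_self_iff]; exact pow_nonneg (by linarith) _
    have hden : den ν h = 1 - (1 - ρ) * (1 - den ν h') := by
      simp only [den, size_half hh.ne', pow_succ, h', ρ]; ring
    rw [hden, ← ev_union]
    set bad : Finset X → ℝ := fun V => (#(I.filter fun i => h' < #(frag I S V i)) : ℝ)
    have hstep : ∀ V, (#I : ℝ) * ev univ (den ν h') (fun W => fail I S (V ∪ W)) ≤
        bad V + (1 - (1 / 8) ^ h') / 4 * M := by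
      intro V
      set good := I.filter fun i => ¬h' < #(frag I S V i) with hgood
      have hsplit : (#I : ℝ) = bad V + (good).card := by
        simp only [bad, hgood, ← Nat.cast_add, card_filter_add_card_filter_not]
      have h1 : ev univ (den ν h') (fun W => fail I S (V ∪ W)) ≤ 1 :=
        (ev_mono hd0 hd1 fun W => fail_le_one I S _).trans (ev_const _ _ _).le
      have h2 : ev univ (den ν h') (fun W => fail I S (V ∪ W)) ≤
          ev univ (den ν h') (fail good (frag I S V)) := by
        refine ev_mono hd0 hd1 fun W => ?_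
        unfold fail
        split_ifs with hc hd <;> norm_num
        push Not at hd
        obtain ⟨i, hi, hiW⟩ := hd
        obtain ⟨j, hj, hjs⟩ := frag_member I S V (mem_filter.1 hi).1
        exact hc j hj (hjs.trans (union_subset_union subset_rfl hiW))
      have h3 : (good).card * ev univ (den ν h') (fail good (frag I S V)) ≤
          (1 - (1 / 8) ^ h') / 4 * M := by
        refine ih h' hh' good (frag I S V) (fun i hi => not_lt.1 (mem_filter.1 hi).2) fun A => ?_
        refine le_trans ?_ (hspr A)
        refine Nat.cast_le.2 (card_le_card fun i hi => ?_)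
        simp only [hgood, mem_filter] at hi
        exact mem_filter.2 ⟨hi.1.1, hi.2.trans (frag_subset I S V i)⟩
      rw [hsplit, add_mul]
      exact add_le_add (mul_le_of_le_one_right (Nat.cast_nonneg _) h1)
        ((mul_le_mul_of_nonneg_left h2 (Nat.cast_nonneg _)).trans h3)
    rw [← ev_mul]
    refine (ev_mono hρ0 hρ hstep).trans ?_
    rw [ev_add, ev_const]
    have hb := bad_le hν hρ hM hsize hspr
    have hp : (1 / 8 : ℝ) ^ h ≤ (1 / 8) ^ (h' + 1) :=
      pow_le_pow_of_le_one (by norm_num) (by norm_num) (by omega)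
    rw [pow_succ] at hp
    nlinarith [pow_nonneg (by norm_num : (0 : ℝ) ≤ 1 / 8) h]

/-- **Spread families appear at density `256 ν size(h)`.** -/
theorem ev_fail_le {ν : ℝ} (hν : 0 < ν) {h : ℕ} {p : ℝ} (hp : 256 * ν * h.size ≤ p) (hp1 : p ≤ 1)
    {I : Finset ι} {S : ι → Finset X} (hI : I.Nonempty) (hsize : ∀ i ∈ I, #(S i) ≤ h)
    (hspr : ∀ A, (#(I.filter fun i => A ⊆ S i) : ℝ) ≤ ν ^ #A * #I) :
    ev univ p (fail I S) ≤ 1 / 4 := by
  rcases Nat.eq_zero_or_pos h with rfl | hh
  · obtain ⟨i, hi⟩ := hI
    have : fail I S = fun _ => 0 := funext fun W => if_neg fun hall =>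
      hall i hi (by rw [card_eq_zero.1 (Nat.le_zero.1 (hsize i hi))]; exact empty_subset W)
    rw [this, ev_const]; norm_num
  · have hs : (1 : ℝ) ≤ h.size := by exact_mod_cast Nat.size_pos.2 hh
    have hρ : 256 * ν ≤ 1 := le_trans (le_mul_of_one_le_right (by positivity) hs) (hp.trans hp1)
    have hden0 : 0 ≤ den ν h := sub_nonneg.2 (pow_le_one₀ (by linarith) (by linarith))
    have hden : den ν h ≤ p := by
      have := one_add_mul_le_pow (show (-2 : ℝ) ≤ -(256 * ν) by linarith) h.size
      rw [← sub_eq_add_neg] at this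
      simp only [den]
      linarith
    have h1 := fail_le hν hρ (Nat.cast_nonneg #I) h I S hsize hspr
    have hI' : (0 : ℝ) < #I := by exact_mod_cast hI.card_pos
    refine (ev_antitone hden0 hden hp1 fun V W hVW => ?_).trans ?_
    · unfold fail
      split_ifs with a b <;> norm_num
      exact b fun i hi hiV => a i hi (hiV.trans hVW)
    · nlinarith [pow_nonneg (by norm_num : (0 : ℝ) ≤ 1 / 8) h]

end Vale.Agent.P064
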