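import Vale.Agent.P064.Defs
import Vale.Agent.P064.Sym
import Vale.Agent.P064.Thr

/-!
Copies of graphs as orbits under vertex permutations, and the two threshold bounds.
-/

namespace Vale.Agent.P064

open Finset

set_option linter.unusedSectionVars false

variable {n : ℕ}

/-- permutations of vertices act on pairs -/
def pairAct : Equiv.Perm (Fin n) →* Equiv.Perm (Sym2 (Fin n)) where
  toFun g :=
    { toFun := Sym2.map g
      invFun := Sym2.map g.symm
      left_inv := fun e => by simp [Sym2.map_map]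
      right_inv := fun e => by simp [Sym2.map_map] }
  map_one' := by ext e; simp
  map_mul' g h := by ext e; simp [Sym2.map_map, Function.comp_def]

@[simp] theorem pairAct_apply (g : Equiv.Perm (Fin n)) (e : Sym2 (Fin n)) :
    pairAct g e = Sym2.map g e := rfl

section ev

variable {X : Type*} [DecidableEq X]

theorem ev_inter {s : Finset X} (t : Finset X) (ρ : ℝ) (f : Finset X → ℝ) :
    ev (t ∪ s) ρ (fun W => f (W ∩ s)) = ev s ρ f := by
  induction t using Finset.induction with
  | empty =>
    rw [empty_union]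
    exact sum_congr rfl fun W hW => by simp only [inter_eq_left.2 (mem_powerset.1 hW)]
  | insert x t hx ih =>
    by_cases hxs : x ∈ s
    · rwa [insert_union, insert_eq_of_mem (mem_union_right _ hxs)]
    · rw [insert_union, ev_insert (by simp [hx, hxs])]
      have : (fun W => f (insert x W ∩ s)) = fun W => f (W ∩ s) := by
        funext W; rw [insert_inter_of_notMem hxs]
      rw [this, ih]; ring

theorem ev_subset {s T : Finset X} (hT : T ⊆ s) (ρ : ℝ) :
    ev s ρ (fun W => if T ⊆ W then 1 else 0) = ρ ^ #T := by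
  induction s using Finset.induction generalizing T with
  | empty => simp [ev, subset_empty.1 hT]
  | insert x s hx ih =>
    rw [ev_insert hx]
    by_cases hxT : x ∈ T
    · have h1 : T.erase x ⊆ s := fun y hy => by
        obtain ⟨hne, hy⟩ := mem_erase.1 hy
        exact (mem_insert.1 (hT hy)).resolve_left hne
      have e1 : ev s ρ (fun W => if T ⊆ W then (1 : ℝ) else 0) = 0 :=
        sum_eq_zero fun W hW => by
          dsimp only
          rw [if_neg fun h => hx (mem_powerset.1 hW (h hxT)), mul_zero]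
      have e2 : (fun W => if T ⊆ insert x W then (1 : ℝ) else 0) =
          fun W => if T.erase x ⊆ W then 1 else 0 := by
        funext W; simp only [subset_insert_iff]
      rw [e1, e2, ih h1, ← card_erase_add_one hxT, pow_succ]
      ring
    · have h1 : T ⊆ s := fun y hy => (mem_insert.1 (hT hy)).resolve_left (fun e => hxT (e ▸ hy))
      have e2 : (fun W => if T ⊆ insert x W then (1 : ℝ) else 0) =
          fun W => if T ⊆ W then 1 else 0 := by
        funext W; simp only [subset_insert_iff_of_notMem hxT]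
      rw [e2, ih h1]; ring

end ev

/-- edge set of a graph on `Fin n` -/
noncomputable def eset (G : SimpleGraph (Fin n)) : Finset (Sym2 (Fin n)) :=
  G.edgeSet.toFinite.toFinset

theorem mem_eset {G : SimpleGraph (Fin n)} {e : Sym2 (Fin n)} : e ∈ eset G ↔ e ∈ G.edgeSet :=
  Set.Finite.mem_toFinset _

/-- all possible edges -/
noncomputable def pairs (n : ℕ) : Finset (Sym2 (Fin n)) := eset (⊤ : SimpleGraph (Fin n))

theorem mem_pairs {e : Sym2 (Fin n)} : e ∈ pairs n ↔ ¬e.IsDiag := by
  simp [pairs, mem_eset]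

theorem eset_subset (G : SimpleGraph (Fin n)) : eset G ⊆ pairs n := fun _ he =>
  mem_pairs.2 (G.not_isDiag_of_mem_edgeSet (mem_eset.1 he))

theorem card_pairs : #(pairs n) = n.choose 2 := by
  classical
  rw [pairs, eset, Set.Finite.toFinset_eq_toFinset, ← SimpleGraph.edgeFinset]
  convert SimpleGraph.card_edgeFinset_top_eq_card_choose_two (V := Fin n) using 1
  simp

open Classical in
theorem sum_wgt (p : ℝ) (f : Finset (Sym2 (Fin n)) → ℝ) :
    ∑ G : SimpleGraph (Fin n), wgt n p G * f (eset G) = ev (pairs n) p f := by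
  refine Finset.sum_nbij' eset (fun W => SimpleGraph.fromEdgeSet (W : Set (Sym2 (Fin n))))
    (fun G _ => mem_powerset.2 (eset_subset G)) (fun W _ => mem_univ _)
    (fun G _ => by simp [eset]) (fun W hW => ?_) fun G _ => ?_
  · ext e
    simp only [mem_eset, SimpleGraph.edgeSet_fromEdgeSet, Set.mem_sdiff, Finset.mem_coe]
    exact ⟨fun h => h.1, fun h => ⟨h, mem_pairs.1 (mem_powerset.1 hW h)⟩⟩
  · have e : G.edgeSet.ncard = #(eset G) := Set.ncard_eq_toFinset_card _ _
    rw [wgt, e, card_sdiff_of_subset (eset_subset G), card_pairs]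

section copies

variable {W : Type} [Fintype W] (F : SimpleGraph W)

/-- vertices and edges of the image of `F` -/
noncomputable def key (ψ : W → Fin n) : Finset (Fin n) × Finset (Sym2 (Fin n)) :=
  (univ.image ψ, F.edgeSet.toFinite.toFinset.image (Sym2.map ψ))

/-- all copies of `F` in the complete graph on `Fin n` -/
noncomputable def cop (ψ₀ : W → Fin n) : Finset (Finset (Fin n) × Finset (Sym2 (Fin n))) :=
  univ.image fun g : Equiv.Perm (Fin n) => key F (g ∘ ψ₀)

theorem key_comp_snd (g : Equiv.Perm (Fin n)) (ψ : W → Fin n) :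
    (key F (g ∘ ψ)).2 = im pairAct g (key F ψ).2 := by
  simp only [key, im, Finset.map_eq_image, image_image, Function.comp_def, Equiv.coe_toEmbedding,
    pairAct_apply, Sym2.map_map]

theorem key_mem_cop {ψ₀ ψ : W → Fin n} (h₀ : Function.Injective ψ₀)
    (h : Function.Injective ψ) : key F ψ ∈ cop F ψ₀ := by
  classical
  let e₀ : {x // x ∈ Set.range ψ₀} ≃ {x // x ∈ Set.range ψ} :=
    (Equiv.ofInjective ψ₀ h₀).symm.trans (Equiv.ofInjective ψ h)
  refine mem_image.2 ⟨e₀.extendSubtype, mem_univ _, ?_⟩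
  congr 1
  funext w
  show e₀.extendSubtype (ψ₀ w) = ψ w
  rw [Equiv.extendSubtype_apply_of_mem e₀ _ ⟨w, rfl⟩]
  simp [e₀]

theorem cop_snd_subset {ψ₀ : W → Fin n} (h₀ : Function.Injective ψ₀)
    {k : Finset (Fin n) × Finset (Sym2 (Fin n))} (hk : k ∈ cop F ψ₀) : k.2 ⊆ pairs n := by
  simp only [cop, mem_image, mem_univ, true_and] at hk
  obtain ⟨g, rfl⟩ := hk
  intro e he
  simp only [key, mem_image, Set.Finite.mem_toFinset] at he
  obtain ⟨d, hd, rfl⟩ := he
  rw [mem_pairs, Sym2.isDiag_map (g.injective.comp h₀)]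
  exact F.not_isDiag_of_mem_edgeSet hd

theorem card_cop_snd {ψ₀ : W → Fin n} {k : Finset (Fin n) × Finset (Sym2 (Fin n))}
    (hk : k ∈ cop F ψ₀) : #k.2 = #(key F ψ₀).2 := by
  simp only [cop, mem_image, mem_univ, true_and] at hk
  obtain ⟨g, rfl⟩ := hk
  rw [key_comp_snd, card_im]

/-- the key of a subgraph -/
noncomputable def subKey {V : Type} (φ : V ↪ Fin n) {G : SimpleGraph V} (K : G.Subgraph) :
    Set (Fin n) × Set (Sym2 (Fin n)) :=
  (φ '' K.verts, Sym2.map φ '' K.edgeSet)

theorem subKey_injective {V : Type} (φ : V ↪ Fin n) {G : SimpleGraph V} :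
    Function.Injective (subKey φ (G := G)) := by
  intro K L h
  simp only [subKey, Prod.mk.injEq] at h
  have h2 := (Sym2.map.injective φ.injective).image_injective h.2
  refine SimpleGraph.Subgraph.ext (φ.injective.image_injective h.1) ?_
  funext v w
  rw [← SimpleGraph.Subgraph.mem_edgeSet, ← SimpleGraph.Subgraph.mem_edgeSet, h2]

theorem subKey_toSubgraph {V : Type} (φ : V ↪ Fin n) {G : SimpleGraph V}
    (c : SimpleGraph.Copy F G) :
    subKey φ c.toSubgraph =
      (((key F (φ ∘ c)).1 : Set (Fin n)), ((key F (φ ∘ c)).2 : Set (Sym2 (Fin n)))) := by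
  simp only [subKey, key, coe_image, coe_univ, Set.image_univ, Set.Finite.coe_toFinset]
  refine Prod.ext ?_ ?_
  · simp [SimpleGraph.Copy.toSubgraph, Set.range_comp]
  · simp [SimpleGraph.Copy.toSubgraph, SimpleGraph.Subgraph.edgeSet_map, Set.image_image,
      Sym2.map_map]

open Classical in
/-- copies in a host graph are keys below it -/
theorem copyCount_eq_card {V : Type} [Fintype V] (φ : V ↪ Fin n) (G : SimpleGraph V) :
    G.copyCount F =
      #((univ : Finset (SimpleGraph.Copy F G)).image fun c : SimpleGraph.Copy F G => key F (φ ∘ ⇑c)) := by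
  classical
  rw [SimpleGraph.copyCount_eq_card_image_copyToSubgraph]
  refine Finset.card_bij
    (fun K _ => ((subKey φ K).1.toFinite.toFinset, (subKey φ K).2.toFinite.toFinset)) ?_ ?_ ?_
  · intro K hK
    simp only [mem_image, mem_univ, true_and] at hK ⊢
    obtain ⟨c, rfl⟩ := hK
    refine ⟨c, Prod.ext ?_ ?_⟩ <;> ext x <;> simp [subKey_toSubgraph] <;> rfl
  · intro K _ L _ h
    simp only [Prod.mk.injEq, Set.Finite.toFinset_inj] at h
    exact subKey_injective φ (Prod.ext h.1 h.2)
  · intro k hk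
    simp only [mem_image, mem_univ, true_and] at hk ⊢
    obtain ⟨c, rfl⟩ := hk
    exact ⟨c.toSubgraph, ⟨c, rfl⟩, by refine Prod.ext ?_ ?_ <;> ext x <;> simp [subKey_toSubgraph] <;> rfl⟩

theorem copyCount_fin {ψ₀ : W → Fin n} (h₀ : Function.Injective ψ₀) (G : SimpleGraph (Fin n)) :
    G.copyCount F = #((cop F ψ₀).filter fun k => k.2 ⊆ eset G) := by
  classical
  rw [copyCount_eq_card F (Function.Embedding.refl _) G]
  congr 1
  ext k
  simp only [mem_image, mem_univ, true_and, mem_filter]
  constructor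
  · rintro ⟨c, rfl⟩
    refine ⟨key_mem_cop F h₀ c.injective, fun e he => ?_⟩
    simp only [key, mem_image, Set.Finite.mem_toFinset] at he
    obtain ⟨d, hd, rfl⟩ := he
    induction d using Sym2.ind with
    | _ a b => exact mem_eset.2 (c.toHom.map_adj hd)
  · rintro ⟨hk, hsub⟩
    simp only [cop, mem_image, mem_univ, true_and] at hk
    obtain ⟨g, rfl⟩ := hk
    refine ⟨⟨⟨g ∘ ψ₀, fun {a b} hab => ?_⟩, g.injective.comp h₀⟩, rfl⟩
    exact mem_eset.1 (hsub (mem_image.2 ⟨s(a, b), (Set.Finite.mem_toFinset _).2 hab, rfl⟩))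

theorem meanCopies_eq (p : ℝ) {ψ₀ : W → Fin n} (h₀ : Function.Injective ψ₀) :
    meanCopies n p F = #(cop F ψ₀) * p ^ #(key F ψ₀).2 := by
  classical
  simp only [meanCopies, copyCount_fin F h₀]
  rw [sum_wgt p fun U => (#((cop F ψ₀).filter fun k => k.2 ⊆ U) : ℝ)]
  simp only [← sum_boole, ev, mul_sum]
  rw [sum_comm, sum_congr rfl fun k hk => ?_, sum_const, nsmul_eq_mul]
  have := ev_subset (cop_snd_subset F h₀ hk) p
  rw [card_cop_snd F hk] at this
  simpa [ev] using this

theorem card_filter_cop {ψ₀ : W → Fin n} (A : Finset (Sym2 (Fin n))) :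
    (#((cop F ψ₀).filter fun k => k.2 ⊆ A) : ℝ) =
      #(cop F ψ₀) * pr pairAct A (key F ψ₀).2 := by
  classical
  have hG : (0 : ℝ) < Fintype.card (Equiv.Perm (Fin n)) := by exact_mod_cast Fintype.card_pos
  have hcomp : ∀ h g : Equiv.Perm (Fin n), key F (⇑(h * g) ∘ ψ₀) =
      ((key F (g ∘ ψ₀)).1.image h, im pairAct h (key F (g ∘ ψ₀)).2) := fun h g => by
    refine Prod.ext ?_ ?_
    · simp only [key, image_image]; rfl
    · exact key_comp_snd F h (g ∘ ψ₀)
  have h := sum_image_smul (fun g : Equiv.Perm (Fin n) => key F (g ∘ ψ₀))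
    (fun h g g' e => by rw [hcomp, hcomp, e])
    fun k => if k.2 ⊆ A then 1 else 0
  simp only [sum_boole, key_comp_snd] at h
  rw [pr, mul_div, eq_div_iff hG.ne', mul_comm]
  exact h

end copies

variable {V : Type} [Fintype V] (H : SimpleGraph V) (φ : V ↪ Fin n)

theorem copyCount_le {W : Type} [Fintype W] (F : SimpleGraph W) {ψ₀ : W → Fin n}
    (h₀ : Function.Injective ψ₀) :
    (H.copyCount F : ℝ) ≤ #((cop F ψ₀).filter fun k => k.2 ⊆ (key H φ).2) := by
  classical
  rw [copyCount_eq_card F φ H]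
  refine Nat.cast_le.2 (card_le_card fun k hk => ?_)
  simp only [mem_image, mem_univ, true_and] at hk
  obtain ⟨c, rfl⟩ := hk
  refine mem_filter.2 ⟨key_mem_cop F h₀ (φ.injective.comp c.injective), fun e he => ?_⟩
  simp only [key, mem_image, Set.Finite.mem_toFinset] at he ⊢
  obtain ⟨d, hd, rfl⟩ := he
  refine ⟨Sym2.map c d, ?_, by simp [Sym2.map_map]⟩
  induction d using Sym2.ind with
  | _ a b => exact c.toHom.map_adj hd

/-- the subgraph spanned by the edges mapped into `S` -/
def spanned (S : Finset (Sym2 (Fin n))) : H.Subgraph where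
  verts := {v | ∃ w, H.Adj v w ∧ s(φ v, φ w) ∈ S}
  Adj v w := H.Adj v w ∧ s(φ v, φ w) ∈ S
  adj_sub h := h.1
  edge_vert h := ⟨_, h⟩
  symm := ⟨fun _ _ h => ⟨h.1.symm, by rw [Sym2.eq_swap]; exact h.2⟩⟩

theorem spr_of_feasible {p : ℝ} (hp : 0 ≤ p)
    (hF : ∀ F : H.Subgraph, 1 / 2 ≤ meanCopies n p F.coe) :
    Spr pairAct (2 * p) (key H φ).2 := by
  classical
  intro S hS
  rcases S.eq_empty_or_nonempty with rfl | hne
  · have := orb_card_pos (pairAct (n := n)) (∅ : Finset (Sym2 (Fin n)))
    simp only [card_empty, pow_zero, mul_one]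
    exact_mod_cast this
  set K := spanned H φ S
  let ψ₀ : K.verts → Fin n := fun v => φ v.1
  have h₀ : Function.Injective ψ₀ := φ.injective.comp Subtype.val_injective
  have hsnd : (key K.coe ψ₀).2 = S := by
    ext e
    simp only [key, mem_image, Set.Finite.mem_toFinset]
    constructor
    · rintro ⟨d, hd, rfl⟩
      induction d using Sym2.ind with
      | _ a b => exact hd.2
    · intro he
      have := hS he
      simp only [key, mem_image, Set.Finite.mem_toFinset] at this
      obtain ⟨d, hd, rfl⟩ := this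
      induction d using Sym2.ind with
      | _ a b =>
        have hab : H.Adj a b := hd
        exact ⟨s(⟨a, b, hab, he⟩, ⟨b, a, hab.symm, by rw [Sym2.eq_swap]; exact he⟩), ⟨hab, he⟩, rfl⟩
  have hinj : #(cop K.coe ψ₀) ≤ #(orb pairAct S) := by
    refine card_le_card_of_injOn Prod.snd (fun k hk => ?_) ?_
    · simp only [cop, mem_coe, mem_image, mem_univ, true_and] at hk
      obtain ⟨g, rfl⟩ := hk
      rw [key_comp_snd, hsnd, mem_coe]
      exact mem_image_of_mem _ (mem_univ g)
    · have hv : ∀ g : Equiv.Perm (Fin n), (key K.coe (g ∘ ψ₀)).1 =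
          univ.filter fun x => ∃ e ∈ (key K.coe (g ∘ ψ₀)).2, x ∈ e := by
        intro g
        ext x
        simp only [key, mem_image, mem_univ, true_and, mem_filter, Set.Finite.mem_toFinset]
        constructor
        · rintro ⟨⟨v, w, hvw, hS'⟩, rfl⟩
          refine ⟨_, ⟨s(⟨v, w, hvw, hS'⟩, ⟨w, v, hvw.symm, by rw [Sym2.eq_swap]; exact hS'⟩),
            ⟨hvw, hS'⟩, rfl⟩, ?_⟩
          simp [Sym2.map_mk]
        · rintro ⟨e, ⟨d, _, rfl⟩, hx⟩
          obtain ⟨v, _, rfl⟩ := Sym2.mem_map.1 hx
          exact ⟨v, rfl⟩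
      intro k hk l hl hkl
      simp only [cop, mem_coe, mem_image, mem_univ, true_and] at hk hl
      obtain ⟨g, rfl⟩ := hk
      obtain ⟨g', rfl⟩ := hl
      exact Prod.ext (by rw [hv, hv, hkl]) hkl
  have h := hF K
  rw [meanCopies_eq K.coe p h₀, hsnd] at h
  have h2 : (2 : ℝ) ≤ 2 ^ #S := by
    calc (2 : ℝ) = 2 ^ 1 := (pow_one _).symm
      _ ≤ 2 ^ #S := pow_le_pow_right₀ (by norm_num) hne.card_pos
  calc (1 : ℝ) ≤ 2 * ((#(cop K.coe ψ₀) : ℝ) * p ^ #S) := by linarith
    _ ≤ 2 ^ #S * ((#(orb pairAct S) : ℝ) * p ^ #S) := by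
        gcongr
    _ = _ := by rw [mul_pow]; ring

theorem edges_card : #(key H φ).2 ≤ n ^ 2 := by
  have h := card_le_card (show (key H φ).2 ⊆ pairs n from
    cop_snd_subset H φ.injective (key_mem_cop H φ.injective φ.injective))
  rw [card_pairs] at h
  exact h.trans (Nat.choose_le_pow n 2)

theorem log_n (hn : 2 ≤ n) : 1 ≤ 2 * Real.log n := by
  have h1 : Real.log 2 ≤ Real.log n := Real.log_le_log (by norm_num) (by exact_mod_cast hn)
  linarith [Real.log_two_gt_d9]

theorem Cbd_le_log (hn : 2 ≤ n) {e : ℕ} (he : e ≤ n ^ 2) : Cbd e ≤ 7680 * Real.log n := by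
  have hl := log_n hn
  have h1 : (harmonic e : ℝ) ≤ 1 + 2 * Real.log n := by
    rcases Nat.eq_zero_or_pos e with rfl | h
    · simp; linarith
    · refine (harmonic_le_one_add_log e).trans ?_
      have hcast : (e : ℝ) ≤ (n : ℝ) ^ 2 := by exact_mod_cast he
      have := Real.log_le_log (by exact_mod_cast h) hcast
      rw [Real.log_pow] at this
      push_cast at this
      linarith
  unfold Cbd
  linarith

theorem size_le_log (hn : 2 ≤ n) {e : ℕ} (he : e ≤ n ^ 2) : (e.size : ℝ) ≤ 6 * Real.log n := by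
  have hl := log_n hn
  rcases Nat.eq_zero_or_pos e with rfl | h
  · simp; linarith
  have h1 : 2 ^ (e.size - 1) ≤ e := Nat.lt_size.1 (by have := Nat.size_pos.2 h; omega)
  have h2 : ((2 : ℝ) ^ (e.size - 1)) ≤ (n : ℝ) ^ 2 := by exact_mod_cast h1.trans he
  have h3 := Real.log_le_log (by positivity) h2
  rw [Real.log_pow, Real.log_pow, Nat.cast_sub (Nat.size_pos.2 h)] at h3
  push_cast at h3
  have h4 : (1 : ℝ) ≤ e.size := by exact_mod_cast Nat.size_pos.2 h
  nlinarith [Real.log_two_gt_d9]

theorem probCopy_ge (p : ℝ) :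
    ev univ p (fun U => 1 - fail (univ : Finset (Equiv.Perm (Fin n)))
      (fun g => im pairAct g (key H φ).2) (U ∩ pairs n)) ≤ ev (pairs n) p (fun U =>
        1 - fail (univ : Finset (Equiv.Perm (Fin n))) (fun g => im pairAct g (key H φ).2) U) :=
  le_of_eq (by
    have := ev_inter (s := pairs n) univ p fun U =>
      1 - fail (univ : Finset (Equiv.Perm (Fin n))) (fun g => im pairAct g (key H φ).2) U
    rwa [show (univ : Finset (Sym2 (Fin n))) ∪ pairs n = univ from top_sup_eq _] at this)

theorem pc_le_of_spread {ν p : ℝ} (hν : 0 < ν)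
    (hpr : ∀ T, pr pairAct (key H φ).2 T ≤ ν ^ #T)
    (hp : 256 * ν * (#(key H φ).2).size ≤ p) (hp1 : p ≤ 1) :
    1 / 2 ≤ probCopy n p H := by
  classical
  set A := (key H φ).2
  set S : Equiv.Perm (Fin n) → Finset (Sym2 (Fin n)) := fun g => im pairAct g A
  have hG : (0 : ℝ) < Fintype.card (Equiv.Perm (Fin n)) := by exact_mod_cast Fintype.card_pos
  have hp0 : 0 ≤ p := le_trans (by positivity) hp
  have hfail := ev_fail_le hν hp hp1 (univ_nonempty (α := Equiv.Perm (Fin n))) (S := S)
    (fun g _ => (card_im _ g A).le) fun T => by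
      have h := hpr T
      rw [pr, div_le_iff₀ hG] at h
      rw [card_univ]
      refine le_trans (le_of_eq ?_) h
      congr 1
      refine Finset.card_nbij' (fun g => g⁻¹) (fun g => g⁻¹) ?_ ?_ (fun _ _ => inv_inv _)
        (fun _ _ => inv_inv _) <;> intro g hg <;>
        simp only [coe_filter, mem_univ, true_and, Set.mem_ofPred_eq, S] at hg ⊢
      · have := (im_subset_im pairAct (g := g⁻¹)).2 hg
        rwa [im_inv_im] at this
      · have := (im_subset_im pairAct (g := g⁻¹)).2 hg
        rwa [← im_mul, inv_mul_cancel, im_one] at this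
  have hmono : ∀ U U', U ⊆ U' → fail univ S U' ≤ fail univ S U := fun U U' h => by
    unfold fail
    split_ifs with a b <;> norm_num
    exact b fun i hi hiU => a i hi (hiU.trans h)
  have hE : ∀ g, S g ⊆ pairs n := fun g => by
    show im pairAct g A ⊆ pairs n
    rw [← key_comp_snd H g φ]
    exact cop_snd_subset H φ.injective (mem_image_of_mem _ (mem_univ g))
  have hsame : ∀ U, fail univ S (U ∩ pairs n) = fail univ S U := fun U =>
    le_antisymm (by
      unfold fail
      split_ifs with a b <;> norm_num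
      exact b fun i hi hiU => a i hi (subset_inter hiU (hE i))) (hmono _ _ inter_subset_left)
  have h1 := probCopy_ge H φ p
  simp only [← show S = fun g => im pairAct g (key H φ).2 from rfl, hsame] at h1
  have h2 : ev univ p (fun U => 1 - fail univ S U) = 1 - ev univ p (fail univ S) := by
    have := ev_add univ p (fun U => 1 - fail univ S U) (fail univ S)
    simp only [sub_add_cancel, ev_const] at this
    linarith
  rw [h2] at h1
  have h3 : ev (pairs n) p (fun U => 1 - fail univ S U) ≤ probCopy n p H := by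
    rw [← sum_wgt p fun U => 1 - fail univ S U]
    refine sum_le_sum fun G _ => ?_
    have hw : 0 ≤ wgt n p G := mul_nonneg (pow_nonneg hp0 _) (pow_nonneg (by linarith) _)
    by_cases h : ∀ g ∈ (univ : Finset (Equiv.Perm (Fin n))), ¬S g ⊆ eset G
    · rw [fail, if_pos h, sub_self, mul_zero]
      split <;> simp [hw]
    · rw [fail, if_neg h, sub_zero, mul_one]
      push Not at h
      obtain ⟨g, _, hg⟩ := h
      rw [if_pos]
      rw [copyCount_fin H φ.injective]
      refine card_pos.2 ⟨key H (g ∘ φ), mem_filter.2 ⟨mem_image_of_mem _ (mem_univ g), ?_⟩⟩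
      rw [key_comp_snd]; exact hg
  linarith

/-- **Main bounds** for a fixed feasible density. -/
theorem bounds (hn : 2 ≤ n) (φ : V ↪ Fin n) {p : ℝ} (hp : 0 < p)
    (hF : ∀ F : H.Subgraph, 1 / 2 ≤ meanCopies n p F.coe) :
    pT n H ≤ 15360 * Real.log n * p ∧ pc n H ≤ 23592960 * Real.log n ^ 2 * p := by
  classical
  set A := (key H φ).2
  set ν := Cbd #A * (2 * p)
  have hl := log_n hn
  have hC := le_Cbd #A
  have hν : 0 < ν := mul_pos (by linarith) (by linarith)
  have hCl := Cbd_le_log hn (edges_card H φ)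
  have hνl : ν ≤ 15360 * Real.log n * p := by
    calc ν ≤ 7680 * Real.log n * (2 * p) := mul_le_mul_of_nonneg_right hCl (by linarith)
      _ = _ := by ring
  have hpr : ∀ T, pr pairAct A T ≤ ν ^ #T :=
    pr_le pairAct (by linarith) #A A le_rfl (spr_of_feasible H φ hp.le hF)
  constructor
  · refine le_trans ?_ hνl
    refine le_trans (csInf_le ⟨0, fun x hx => hx.1⟩ ?_) (min_le_left ν 1)
    refine ⟨le_min hν.le zero_le_one, min_le_right _ _, fun F => ?_⟩
    let ψ₀ : F.verts → Fin n := fun v => φ v.1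
    have h₀ : Function.Injective ψ₀ := φ.injective.comp Subtype.val_injective
    have h1 := copyCount_le H φ F.coe h₀
    rw [card_filter_cop] at h1
    rw [meanCopies_eq F.coe _ h₀]
    have h3 : pr pairAct A (key F.coe ψ₀).2 ≤ (min ν 1) ^ #(key F.coe ψ₀).2 := by
      rcases min_cases ν 1 with ⟨e, _⟩ | ⟨e, _⟩ <;> rw [e]
      · exact hpr _
      · rw [one_pow]; exact pr_le_one _ _ _
    have h4 := mul_le_mul_of_nonneg_left h3 (Nat.cast_nonneg (#(cop F.coe ψ₀)) : (0 : ℝ) ≤ _)
    have h5 : (0 : ℝ) ≤ H.copyCount F.coe := Nat.cast_nonneg _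
    linarith
  · set r := 256 * ν * (#A).size with hr
    have hrl : r ≤ 23592960 * Real.log n ^ 2 * p := by
      calc r ≤ 256 * (15360 * Real.log n * p) * (6 * Real.log n) :=
            mul_le_mul (by linarith) (size_le_log hn (edges_card H φ)) (Nat.cast_nonneg _)
              (by positivity)
        _ = _ := by ring
    refine le_trans ?_ hrl
    rcases le_or_gt r 1 with h1 | h1
    · exact csInf_le ⟨0, fun x hx => hx.1⟩
        ⟨by positivity, h1, pc_le_of_spread H φ hν hpr le_rfl h1⟩
    · refine le_trans (csInf_le ⟨0, fun x hx => hx.1⟩ ⟨zero_le_one, le_rfl, ?_⟩) h1.le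
      have hfull : probCopy n 1 H = ∑ G : SimpleGraph (Fin n),
          wgt n 1 G * if 0 < G.copyCount H then 1 else 0 := by
        simp [probCopy, mul_ite]
      rw [hfull]
      simp only [copyCount_fin H φ.injective]
      rw [sum_wgt 1 fun U => if 0 < #((cop H φ).filter fun k => k.2 ⊆ U) then (1 : ℝ) else 0]
      rw [ev, Finset.sum_eq_single (pairs n) (fun U hU hne => ?_)
        (fun h => absurd (mem_powerset_self _) h)]
      · rw [if_pos (card_pos.2 ⟨key H φ, mem_filter.2 ⟨key_mem_cop H φ.injective φ.injective,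
          cop_snd_subset H φ.injective (key_mem_cop H φ.injective φ.injective)⟩⟩)]
        norm_num
      · have : #(pairs n \ U) ≠ 0 := fun h0 => hne
          (subset_antisymm (mem_powerset.1 hU) (sdiff_eq_empty_iff_subset.1 (card_eq_zero.1 h0)))
        simp [zero_pow this]

theorem thresholds_le (hn : 2 ≤ n) (φ : V ↪ Fin n) (hH : H ≠ ⊥) :
    pT n H ≤ 15360 * Real.log n * pE n H ∧ pc n H ≤ 23592960 * Real.log n ^ 2 * pE n H := by
  classical
  set s := {p : ℝ | 0 ≤ p ∧ p ≤ 1 ∧ ∀ F : H.Subgraph, 1 / 2 ≤ meanCopies n p F.coe}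
  have hne : s.Nonempty := ⟨1, zero_le_one, le_rfl, fun F => by
    have h₀ : Function.Injective fun v : F.verts => φ v.1 :=
      φ.injective.comp Subtype.val_injective
    rw [meanCopies_eq F.coe 1 h₀, one_pow, mul_one]
    have : 0 < #(cop F.coe fun v : F.verts => φ v.1) :=
      card_pos.2 ⟨_, mem_image_of_mem _ (mem_univ 1)⟩
    have h1 : (1 : ℝ) ≤ #(cop F.coe fun v : F.verts => φ v.1) := by exact_mod_cast this
    linarith⟩
  have hpos : ∀ p ∈ s, 0 < p := by
    rintro p ⟨hp0, -, hF⟩
    refine lt_of_le_of_ne hp0 fun hp => ?_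
    have h := hF ⊤
    have h₀ : Function.Injective fun v : (⊤ : H.Subgraph).verts => φ v.1 :=
      φ.injective.comp Subtype.val_injective
    rw [meanCopies_eq _ p h₀, ← hp, zero_pow, mul_zero] at h
    · norm_num at h
    · obtain ⟨a, b, hab⟩ : ∃ a b, H.Adj a b := by
        by_contra hno
        push Not at hno
        exact hH (eq_bot_iff.2 fun a b hab => absurd hab (hno a b))
      refine card_ne_zero.2 ⟨s(φ a, φ b), ?_⟩
      simp only [key, mem_image, Set.Finite.mem_toFinset]
      exact ⟨s(⟨a, trivial⟩, ⟨b, trivial⟩), hab, rfl⟩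
  have hl := log_n hn
  have key' : ∀ {c x : ℝ}, 0 < c → (∀ p ∈ s, x ≤ c * p) → x ≤ c * pE n H := fun {c x} hc h => by
    rw [← div_le_iff₀' hc]
    exact le_csInf hne fun p hp => (div_le_iff₀' hc).2 (h p hp)
  have hlog : 0 < Real.log n := by linarith
  exact ⟨key' (by positivity) fun p hp => (bounds H hn φ (hpos p hp) hp.2.2).1,
    key' (by positivity) fun p hp => (bounds H hn φ (hpos p hp) hp.2.2).2⟩

end Vale.Agent.P064
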