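import Vale.Agent.P064.State

/-!
The potential pays for the correlation term.
-/

namespace Vale.Agent.P064

open Finset Real

set_option linter.unusedSectionVars false

/-- `x - x^(3/2)` -/
noncomputable def pf (x : ℝ) : ℝ := x - rho x

theorem pf_union_le {a b : ℝ} (ha : a ∈ Set.Icc (0 : ℝ) 1) (hb : b ∈ Set.Icc (0 : ℝ) 1) :
    pf (a + b - a * b) ≤ pf a + pf b := by
  obtain ⟨ha0, ha1⟩ := ha
  obtain ⟨hb0, hb1⟩ := hb
  have hab := mul_nonneg ha0 hb0
  set x := a + b - a * b with hx
  have hxa : a ≤ x := by nlinarith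
  have hxb : b ≤ x := by nlinarith
  have hx1 : x ≤ 1 := by nlinarith
  have h1 := mul_le_mul_of_nonneg_left (sqrt_le_sqrt hxa) ha0
  have h2 := mul_le_mul_of_nonneg_left (sqrt_le_sqrt hxb) hb0
  have h3 := mul_le_mul_of_nonneg_right (show x ≤ a + b by linarith)
    (sub_nonneg.2 (sqrt_le_one.2 hx1))
  simp only [pf, rho]
  nlinarith

theorem pf_double {f : ℝ} (hf : f ∈ Set.Icc (0 : ℝ) 1) :
    7 / 8 * pf (2 * f - f ^ 2) + 1 / 8 * rho f ≤ 7 / 4 * pf f + 3 * f ^ 2 := by
  obtain ⟨h0, h1⟩ := hf
  set s := √f with hs
  have hs0 : 0 ≤ s := sqrt_nonneg _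
  have hff : f = s * s := (mul_self_sqrt h0).symm
  have hs1 : s ≤ 1 := sqrt_le_one.2 h1
  have hsq : √(2 * f - f ^ 2) = s * √(2 - f) := by
    rw [hs, ← sqrt_mul h0]; congr 1; ring
  have key : 15 / 7 - 3 * s ≤ (2 - f) * √(2 - f) := by
    rcases le_or_gt f (7 / 16) with h | h
    · have hr : 5 / 4 ≤ √(2 - f) := le_sqrt_of_sq_le (by linarith)
      nlinarith [mul_le_mul_of_nonneg_left hr (show (0 : ℝ) ≤ 2 - f by linarith)]
    · have hr : 1 ≤ √(2 - f) := le_sqrt_of_sq_le (by linarith)
      have : 13 / 20 ≤ s := le_sqrt_of_sq_le (by linarith)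
      nlinarith [mul_le_mul_of_nonneg_left hr (show (0 : ℝ) ≤ 2 - f by linarith)]
  have key2 := mul_le_mul_of_nonneg_left key (show 0 ≤ f * s by positivity)
  simp only [pf, rho, hsq]
  rw [← hs]
  have e : f * s * s = f ^ 2 := by rw [sq]; nth_rewrite 3 [hff]; ring
  nlinarith

variable {G X : Type} [Group G] [Fintype G] [Fintype X] [DecidableEq X]
variable (act : G →* Equiv.Perm X) {ι : Type} [Fintype ι] {A : Finset X} {μ : ι → Finset X → ℝ}

theorem marg_push_union (K N : Finset X → ℝ) (c n : ℝ) (y : X) :
    marg (push (fun p : Finset X × Finset X => p.1 ∪ p.2) fun p => c * (K p.1 * N p.2 / n)) y =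
      c * ((marg K y * ∑ v, N v) + (∑ v, K v) * marg N y - marg K y * marg N y) / n := by
  have e : ∀ M : Finset X → ℝ, marg M y = ∑ v, M v * (if y ∈ v then 1 else 0) := fun M =>
    sum_congr rfl fun v _ => by split <;> simp
  rw [e, sum_push, Fintype.sum_prod_type, e K, e N, sum_mul_sum, sum_mul_sum, sum_mul_sum,
    ← sum_add_distrib, ← sum_sub_distrib, mul_sum, sum_div]
  refine sum_congr rfl fun v _ => ?_
  rw [← sum_add_distrib, ← sum_sub_distrib, mul_sum, sum_div]
  refine sum_congr rfl fun v' _ => ?_
  by_cases h : y ∈ v <;> by_cases h' : y ∈ v' <;> simp [h, h'] <;> ring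

theorem marg_div_mem {M : Finset X → ℝ} (h : ∀ v, 0 ≤ M v) (y : X) :
    marg M y / (∑ v, M v) ∈ Set.Icc (0 : ℝ) 1 := by
  have h0 : 0 ≤ marg M y := sum_nonneg fun v _ => by split <;> simp [h v]
  have h1 : marg M y ≤ ∑ v, M v := sum_le_sum fun v _ => by split <;> simp [h v]
  have h2 : 0 ≤ ∑ v, M v := sum_nonneg fun v _ => h v
  exact ⟨div_nonneg h0 h2, div_le_one_of_le₀ h1 h2⟩

theorem total_prod (K N : Finset X → ℝ) (c n : ℝ) :
    ∑ p : Finset X × Finset X, c * (K p.1 * N p.2 / n) = c * ((∑ v, K v) * ∑ v, N v) / n := by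
  rw [Fintype.sum_prod_type, sum_mul_sum, mul_sum, sum_div]
  refine sum_congr rfl fun v _ => ?_
  rw [mul_sum, sum_div]
  exact sum_congr rfl fun v' _ => by ring

theorem psi_le (h : Valid A μ) :
    psi act μ ≤ 8 * (2 * pot μ - pot (next act μ)) + 24 * ovl μ := by
  have hovl : ovl μ = ∑ i, ∑ y, mass μ i * (marg (μ i) y / mass μ i) ^ 2 := by
    refine sum_congr rfl fun i _ => ?_
    have e1 : ∀ p : Finset X × Finset X, (#(p.1 ∩ p.2) : ℝ) =
        ∑ y, (if y ∈ p.1 then 1 else 0) * (if y ∈ p.2 then (1 : ℝ) else 0) := fun p => by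
      simp [← ite_and]
      congr 1; ext x; simp [and_comm]
    simp only [e1, mul_sum]
    rw [sum_comm]
    refine sum_congr rfl fun y _ => ?_
    rw [Fintype.sum_prod_type]
    have e2 : marg (μ i) y = ∑ v, μ i v * (if y ∈ v then 1 else 0) :=
      sum_congr rfl fun v _ => by split <;> simp
    rw [show mass μ i * (marg (μ i) y / mass μ i) ^ 2 = marg (μ i) y * marg (μ i) y / mass μ i by
      rcases eq_or_ne (mass μ i) 0 with h0 | h0
      · simp [h0]
      · field_simp, e2, sum_mul_sum, sum_div]
    refine sum_congr rfl fun v _ => ?_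
    rw [sum_div]
    exact sum_congr rfl fun v' _ => by simp only [pair]; ring
  have hnone : ∀ i y, mass (next act μ) (i, none) *
      (marg (next act μ (i, none)) y / mass (next act μ) (i, none) -
        rho (marg (next act μ (i, none)) y / mass (next act μ) (i, none))) =
      7 / 8 * (mass μ i * pf (2 * (marg (μ i) y / mass μ i) - (marg (μ i) y / mass μ i) ^ 2)) := by
    intro i y
    have hc : child act μ (i, none) = fun p => 7 / 8 * (μ i p.1 * μ i p.2 / mass μ i) :=
      funext fun p => by rw [child, pair]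
    have hm' : mass (next act μ) (i, none) = 7 / 8 * mass μ i := by
      rw [mass, next, total_push, hc, total_prod, ← mass]
      rcases eq_or_ne (mass μ i) 0 with h0 | h0
      · simp [h0]
      · field_simp
    have hn : marg (next act μ (i, none)) y =
        7 / 8 * (marg (μ i) y * mass μ i + mass μ i * marg (μ i) y -
          marg (μ i) y * marg (μ i) y) / mass μ i := by
      rw [next, hc, marg_push_union]; rfl
    rw [hm', hn, ← pf]
    rcases eq_or_ne (mass μ i) 0 with h0 | h0
    · simp [h0]
    · rw [mul_assoc]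
      congr 3
      field_simp
      ring
  have hsome : ∀ i y u, mass (next act μ) (i, some u) *
      (marg (next act μ (i, some u)) y / mass (next act μ) (i, some u) -
        rho (marg (next act μ (i, some u)) y / mass (next act μ) (i, some u))) =
      1 / 8 * (fake act μ i u * pf (marg (fun v => ker act μ i v u) y / fake act μ i u +
        marg (μ i) y / mass μ i -
          marg (fun v => ker act μ i v u) y / fake act μ i u * (marg (μ i) y / mass μ i))) := by
    intro i y u
    have hc : child act μ (i, some u) =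
        fun p => 1 / 8 * (ker act μ i p.1 u * μ i p.2 / mass μ i) := funext fun p => by rw [child]
    have hm' : mass (next act μ) (i, some u) = 1 / 8 * fake act μ i u := by
      rw [mass, next, total_push, hc, total_prod (fun v => ker act μ i v u), ← mass, ← fake]
      rcases eq_or_ne (mass μ i) 0 with h0 | h0
      · have : fake act μ i u = 0 := sum_eq_zero fun v _ => by simp [ker, h.eq_zero h0 v]
        simp [h0, this]
      · field_simp
    have hn : marg (next act μ (i, some u)) y =
        1 / 8 * (marg (fun v => ker act μ i v u) y * mass μ i + fake act μ i u * marg (μ i) y -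
          marg (fun v => ker act μ i v u) y * marg (μ i) y) / mass μ i := by
      rw [next, hc, marg_push_union (fun v => ker act μ i v u)]; rfl
    rw [hm', hn, ← pf]
    rcases eq_or_ne (fake act μ i u) 0 with h1 | h1
    · simp [h1]
    have h0 : mass μ i ≠ 0 := fun h0 => h1 (sum_eq_zero fun v _ => by simp [ker, h.eq_zero h0 v])
    rw [mul_assoc]
    congr 3
    field_simp
  have key : ∀ i y,
      ∑ u, fake act μ i u * rho (marg (fun v => ker act μ i v u) y / fake act μ i u) +
        8 * ∑ o, mass (next act μ) (i, o) * (marg (next act μ (i, o)) y / mass (next act μ) (i, o) -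
          rho (marg (next act μ (i, o)) y / mass (next act μ) (i, o))) ≤
      16 * (mass μ i * (marg (μ i) y / mass μ i - rho (marg (μ i) y / mass μ i))) +
        24 * (mass μ i * (marg (μ i) y / mass μ i) ^ 2) := by
    intro i y
    set f := marg (μ i) y / mass μ i with hf
    have hfI : f ∈ Set.Icc (0 : ℝ) 1 := marg_div_mem (h.nonneg i) y
    set F : Finset X → ℝ := fun u => marg (fun v => ker act μ i v u) y / fake act μ i u
    have hFI : ∀ u, F u ∈ Set.Icc (0 : ℝ) 1 := fun u =>
      marg_div_mem (fun v => ker_nonneg act h i v u) y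
    have hU : ∀ u, 0 ≤ fake act μ i u := fun u => sum_nonneg fun v _ => ker_nonneg act h i v u
    have hsU : ∑ u, fake act μ i u = mass μ i := by
      simp only [fake]
      rw [sum_comm]
      exact sum_congr rfl fun v _ => sum_ker act h i v
    have hsF : ∑ u, fake act μ i u * F u = mass μ i * f := by
      have e : ∀ u, fake act μ i u * F u = marg (fun v => ker act μ i v u) y := fun u => by
        by_cases h1 : fake act μ i u = 0
        · have h2 : ∀ v, ker act μ i v u = 0 := fun v =>
            (sum_eq_zero_iff_of_nonneg fun v _ => ker_nonneg act h i v u).1 h1 v (mem_univ v)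
          simp [h1, marg, h2]
        · exact mul_div_cancel₀ _ h1
      have e3 : mass μ i * f = marg (μ i) y := by
        by_cases h0 : mass μ i = 0
        · simp [h0, marg, h.eq_zero h0]
        · exact mul_div_cancel₀ _ h0
      rw [sum_congr rfl fun u _ => e u, e3]
      simp only [marg]
      rw [sum_comm]
      refine sum_congr rfl fun v _ => ?_
      split <;> simp [sum_ker act h i v]
    have hs : ∑ u, fake act μ i u * pf (F u + f - F u * f) ≤
        ∑ u, (fake act μ i u * F u - fake act μ i u * rho (F u)) + mass μ i * pf f := by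
      calc _ ≤ ∑ u, fake act μ i u * (pf (F u) + pf f) :=
            sum_le_sum fun u _ => mul_le_mul_of_nonneg_left (pf_union_le (hFI u) hfI) (hU u)
        _ = _ := by
            simp only [mul_add, sum_add_distrib, ← sum_mul, hsU]
            congr 1
            exact sum_congr rfl fun u _ => by rw [pf, mul_sub]
    rw [sum_sub_distrib, hsF] at hs
    have hd := mul_le_mul_of_nonneg_left (pf_double hfI) (h.mass_nonneg i)
    rw [Fintype.sum_option, hnone, sum_congr rfl fun u _ => hsome i y u, ← mul_sum]
    simp only [pf] at hs hd ⊢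
    simp only [F] at hs
    linarith
  have hs := sum_le_sum fun i (_ : i ∈ univ) => sum_le_sum fun y (_ : y ∈ univ) => key i y
  have e : ∀ (c : ℝ) (f : ι → X → ℝ), ∑ i, ∑ y, c * f i y = c * ∑ i, ∑ y, f i y := fun c f => by
    simp only [mul_sum]
  simp only [sum_add_distrib, e] at hs
  have hp : pot (next act μ) = ∑ i, ∑ y, ∑ o, mass (next act μ) (i, o) *
      (marg (next act μ (i, o)) y / mass (next act μ) (i, o) -
        rho (marg (next act μ (i, o)) y / mass (next act μ) (i, o))) := by
    unfold pot
    rw [Fintype.sum_prod_type]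
    exact sum_congr rfl fun i _ => sum_comm
  rw [← hp, ← hovl] at hs
  unfold psi
  unfold pot at hs ⊢
  linarith

end Vale.Agent.P064
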