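import Vale.Agent.P064.Step
import Vale.Agent.P064.Chain
import Vale.Agent.P064.Potential

/-!
A spread orbit contains every fixed configuration with probability at most `(C q) ^ j`,
with a universal constant `C`.
-/

namespace Vale.Agent.P064

open Finset Real Filter Topology

set_option linter.unusedSectionVars false

variable {G X : Type} [Group G] [Fintype G] [Fintype X] [DecidableEq X]
variable (act : G →* Equiv.Perm X)

/-- one step -/
theorem info_step {ι : Type} [Fintype ι] {A : Finset X} {μ : ι → Finset X → ℝ} (h : Valid A μ)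
    {q Λ : ℝ} (hq : 0 < q) (hA : Spr act q A) (hpr : ∀ J, pr act A J ≤ (exp Λ * q) ^ #J) :
    info act (next act μ) + (-log q - 3 / 4 * Λ - 32) * ovl μ -
      10 * (2 * pot μ - pot (next act μ)) ≤ 2 * info act μ := by
  have h1 := info_next_le act h
  have h2 := ent_wpair_le act h
  have h3 := ent_child act h
  have h4 := sum_ent_pvo act h
  set N : Finset X → ℝ := fun u => ∑ i, fake act μ i u
  have hN0 : ∀ u, 0 ≤ N u := fun u =>
    sum_nonneg fun i _ => sum_nonneg fun v _ => ker_nonneg act h i v u
  have hNs : ∀ u, N u ≠ 0 → u ⊆ A := fun u hu => by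
    obtain ⟨i, -, hi⟩ := exists_ne_zero_of_sum_ne_zero hu
    obtain ⟨v, -, hv⟩ := exists_ne_zero_of_sum_ne_zero hi
    exact (ker_subset act i hv).trans (ker_supp act h i hv)
  have hN1 : ∑ u, N u = 1 := by
    have := total_po act h
    rwa [po_eq act h, sum_avg] at this
  have hNc : ∑ u, N u * #u = ovl μ := sum_fake_card act h
  have h5 := spread_ent act hA hN0 hNs hN1
  have h6 := spr_info act hq hpr hN0 hNs hN1
  have h7 : ∑ i, ent (fake act μ i) ≤ ent N :=
    ent_sum_le fun i u => sum_nonneg fun v _ => ker_nonneg act h i v u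
  rw [hNc, ← po_eq act h] at h5 h6
  have h8 : ∑ i, ent (μ i) + ∑ i, ∑ v, ent (ker act μ i v) =
      ∑ i, ent (fake act μ i) + ∑ i, ∑ u, ent (fun v => ker act μ i v u) := by
    rw [← sum_add_distrib, ← sum_add_distrib]
    refine sum_congr rfl fun i _ => ?_
    have := ent_swap (ker act μ i)
    rwa [show (fun v => ∑ u, ker act μ i v u) = μ i from funext (sum_ker act h i)] at this
  have h9 : ∀ i, ∑ v, ent (ker act μ i v) ≤
      1 / 2 * (ent (fake act μ i) - ∑ v, ent (ker act μ i v)) +
      3 / 2 * ∑ v, ∑ u, ker act μ i v u * #u +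
      ∑ y, ∑ u, fake act μ i u *
        rho (marg (fun v => ker act μ i v u) y / fake act μ i u) := fun i =>
    chain_bound (K := ker act μ i) (ker_nonneg act h i) fun v u => ker_subset act i
  have h10 := sum_le_sum fun i (_ : i ∈ univ) => h9 i
  simp only [sum_add_distrib, ← mul_sum, sum_sub_distrib] at h10
  have h11 : ∑ i, ∑ v, ∑ u, ker act μ i v u * #u = ovl μ := by
    rw [← hNc]
    simp only [N, fake, sum_mul]
    rw [sum_comm (γ := Finset X) (s := univ (α := Finset X))]
    exact sum_congr rfl fun i _ => sum_comm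
  rw [h11, ← psi] at h10
  have h12 := psi_le act h
  have h13 : 0 ≤ ovl μ :=
    sum_nonneg fun i _ => sum_nonneg fun p _ => mul_nonneg (pair_nonneg h i p) (Nat.cast_nonneg _)
  have h14 : info act μ = ent (pv act μ) - ∑ i, ent (μ i) := rfl
  linarith

theorem marg_le {ι : Type} [Fintype ι] {A : Finset X} {μ : ι → Finset X → ℝ} (h : Valid A μ)
    (i : ι) (y : X) : marg (μ i) y / mass μ i ∈ Set.Icc (0 : ℝ) 1 := by
  have h0 : 0 ≤ marg (μ i) y := sum_nonneg fun v _ => by split <;> simp [h.nonneg i v]
  have h1 : marg (μ i) y ≤ mass μ i := sum_le_sum fun v _ => by split <;> simp [h.nonneg i v]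
  exact ⟨div_nonneg h0 (h.mass_nonneg i), div_le_one_of_le₀ h1 (h.mass_nonneg i)⟩

theorem pot_nonneg {ι : Type} [Fintype ι] {A : Finset X} {μ : ι → Finset X → ℝ} (h : Valid A μ) :
    0 ≤ pot μ :=
  sum_nonneg fun i _ => sum_nonneg fun y _ => mul_nonneg (h.mass_nonneg i) (sub_nonneg.2 (by
    obtain ⟨h0, h1⟩ := marg_le h i y
    exact mul_le_of_le_one_right h0 (sqrt_le_one.2 h1)))

theorem pot_le {ι : Type} [Fintype ι] {A : Finset X} {μ : ι → Finset X → ℝ} (h : Valid A μ) :
    pot μ ≤ size μ := by
  refine sum_le_sum fun i _ => ?_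
  calc _ ≤ ∑ y, marg (μ i) y := sum_le_sum fun y _ => by
        obtain ⟨h0, h1⟩ := marg_le h i y
        refine le_trans (mul_le_mul_of_nonneg_left
          (sub_le_self _ (mul_nonneg h0 (sqrt_nonneg _))) (h.mass_nonneg i)) (le_of_eq ?_)
        by_cases hm : mass μ i = 0
        · simp [hm, marg, h.eq_zero hm]
        · exact mul_div_cancel₀ _ hm
    _ = ∑ v, μ i v * #v := by
        simp only [marg]
        rw [sum_comm]
        refine sum_congr rfl fun v _ => ?_
        simp [mul_comm]

theorem size_le {ι : Type} [Fintype ι] {A : Finset X} {μ : ι → Finset X → ℝ} (h : Valid A μ) :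
    size μ ≤ #A := by
  calc size μ ≤ ∑ i, ∑ v, μ i v * #A := sum_le_sum fun i _ => sum_le_sum fun v _ => by
        by_cases hv : μ i v = 0
        · simp [hv]
        · exact mul_le_mul_of_nonneg_left (by exact_mod_cast card_le_card (h.supp i v hv))
            (h.nonneg i v)
    _ = #A := by simp only [← sum_mul, h.total, one_mul]

/-- the induction over states -/
theorem info_bound {A : Finset X} {q Λ : ℝ} (hq : 0 < q) (hA : Spr act q A)
    (hpr : ∀ J, pr act A J ≤ (exp Λ * q) ^ #J) (hc : 0 ≤ -log q - 3 / 4 * Λ - 32) :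
    ∀ (N : ℕ) (ι : Type) [Fintype ι] (μ : ι → Finset X → ℝ), Valid A μ →
      (-log q - 3 / 4 * Λ - 32) * (size μ - #A / 2 ^ N) - 10 * pot μ ≤ info act μ := by
  intro N
  induction N with
  | zero =>
    intro ι _ μ h
    have h1 := info_nonneg act h
    have h2 := pot_nonneg h
    have h3 := size_le h
    rw [pow_zero, div_one]
    nlinarith [mul_nonneg hc (sub_nonneg.2 h3)]
  | succ N ih =>
    intro ι _ μ h
    have h1 := ih _ (next act μ) (valid_next act h)
    have h2 := info_step act h hq hA hpr
    have h3 := size_next act h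
    have h4 : ((#A : ℝ) / 2 ^ (N + 1)) * 2 = #A / 2 ^ N := by rw [pow_succ]; field_simp
    have h5 : (-log q - 3 / 4 * Λ - 32) * size (next act μ) + (-log q - 3 / 4 * Λ - 32) * ovl μ =
        (-log q - 3 / 4 * Λ - 32) * size μ * 2 := by
      rw [← mul_add, h3]; ring
    have h6 : (-log q - 3 / 4 * Λ - 32) * (#A / 2 ^ N) =
        (-log q - 3 / 4 * Λ - 32) * (#A / 2 ^ (N + 1)) * 2 := by
      rw [← h4]; ring
    linarith

/-- one contraction of the exponent -/
theorem improve {A : Finset X} {q Λ : ℝ} (hq : 0 < q) (hA : Spr act q A)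
    (hpr : ∀ J, pr act A J ≤ (exp Λ * q) ^ #J) (hc : 0 ≤ -log q - 3 / 4 * Λ - 32) :
    ∀ J, pr act A J ≤ (exp (3 / 4 * Λ + 42) * q) ^ #J := by
  intro J
  classical
  rcases (pr_nonneg act A J).eq_or_lt with e | e
  · rw [← e]; positivity
  set N : ℝ := ((#(copies act A J) : ℕ) : ℝ) with hNdef
  set M : ℝ := ((#(orb act J) : ℕ) : ℝ) with hMdef
  have hM : 0 < M := Nat.cast_pos.2 (orb_card_pos act J)
  have hN : 0 < N := by
    have := card_copies act A J
    simp only [N, this]; exact mul_pos hM e
  set μ : Unit → Finset X → ℝ := fun _ v => if v ∈ copies act A J then N⁻¹ else 0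
  have hμ : Valid A μ := by
    refine ⟨fun _ v => ?_, fun _ v hv => ?_, ?_⟩
    · simp only [μ]; split <;> simp [hN.le]
    · simp only [μ, ne_eq, ite_eq_right_iff, Classical.not_imp] at hv
      exact (mem_filter.1 hv.1).2
    · simp [μ, N, hN.ne']
  have hcard : ∀ v ∈ copies act A J, #v = #J := fun v hv => card_of_mem_orb act (mem_filter.1 hv).1
  have hsize : size μ = #J := by
    simp only [size, μ, ite_mul, zero_mul, sum_ite_mem, univ_inter, Finset.univ_unique, sum_singleton]
    rw [sum_congr rfl fun v hv => by rw [hcard v hv], sum_const, nsmul_eq_mul, ← mul_assoc]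
    simp [N, hN.ne']
  have hpv : ∀ v, pv act μ v = if v ∈ orb act J then M⁻¹ else 0 := by
    intro v
    simp only [pv, avg, imH_apply, Finset.univ_unique, sum_singleton, μ]
    have hmem : ∀ g, im act g v ∈ copies act A J ↔ v ∈ orb act J ∧ im act g v ⊆ A := fun g => by
      simp only [copies, mem_filter, and_congr_left_iff]
      exact fun _ => ⟨fun h => by simpa [im_inv_im] using im_mem_orb act (g := g⁻¹) h, im_mem_orb act⟩
    simp only [hmem]
    split_ifs with hv
    · simp only [hv, true_and]
      rw [← sum_filter, sum_const, nsmul_eq_mul]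
      have h1 := card_copies act A v
      have ho : orb act v = orb act J := by
        simp only [orb, mem_image, mem_univ, true_and] at hv
        obtain ⟨g, rfl⟩ := hv
        exact orb_im act g J
      rw [copies, ho, ← copies, pr] at h1
      have hG : (0 : ℝ) < Fintype.card G := Nat.cast_pos.2 Fintype.card_pos
      simp only [N, M] at h1 hN hM ⊢
      field_simp at h1 ⊢
      linarith
    · simp [hv]
  have hinfo : info act μ = log M - log N := by
    have e1 : ∀ (s : Finset (Finset X)) (c : ℝ), c ≠ 0 → (#s : ℝ) = c →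
        ent (fun v => if v ∈ s then c⁻¹ else 0) = log c := by
      intro s c hc0 hs
      have : ∀ v, negMulLog (if v ∈ s then c⁻¹ else 0) =
          if v ∈ s then negMulLog c⁻¹ else 0 := fun v => by split <;> simp
      simp only [ent, this, sum_ite_mem, univ_inter, sum_const, nsmul_eq_mul, hs,
        mul_inv_cancel₀ hc0, negMulLog_one, sub_zero]
      simp [negMulLog, log_inv]
      field_simp
    rw [info, funext hpv, e1 _ M hM.ne' rfl, Finset.univ_unique, sum_singleton, e1 _ N hN.ne' rfl]
  have hlim : (-log q - 3 / 4 * Λ - 32) * #J - 10 * #J ≤ log M - log N := by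
    have h1 : Tendsto (fun k : ℕ =>
        (-log q - 3 / 4 * Λ - 32) * ((#J : ℝ) - #A / 2 ^ k) - 10 * #J) atTop
        (𝓝 ((-log q - 3 / 4 * Λ - 32) * #J - 10 * #J)) := by
      have h2 : Tendsto (fun k : ℕ => (#A : ℝ) / 2 ^ k) atTop (𝓝 0) :=
        tendsto_const_nhds.div_atTop (tendsto_pow_atTop_atTop_of_one_lt one_lt_two)
      simpa using ((tendsto_const_nhds.sub h2).const_mul _).sub_const _
    refine le_of_tendsto' h1 fun k => ?_
    have h3 := info_bound act hq hA hpr hc k Unit μ hμ
    have h4 := pot_le hμ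
    rw [hinfo, hsize] at h3
    rw [hsize] at h4
    linarith
  have hNM : N = M * pr act A J := card_copies act A J
  have hpos : 0 < exp (3 / 4 * Λ + 42) * q := mul_pos (exp_pos _) hq
  refine (log_le_log_iff e (pow_pos hpos _)).1 ?_
  rw [log_pow, log_mul (exp_pos _).ne' hq.ne', log_exp]
  rw [hNM, log_mul hM.ne' e.ne'] at hlim
  linarith

/-- **The spread bound with a universal constant.** -/
theorem pr_le_univ {A : Finset X} {q : ℝ} (hq : 0 < q) (hA : Spr act q A) (J : Finset X) :
    pr act A J ≤ (exp 169 * q) ^ #J := by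
  rcases le_or_gt 1 (exp 168 * q) with hbig | hsmall
  · refine (pr_le_one act A J).trans (one_le_pow₀ (hbig.trans ?_))
    exact mul_le_mul_of_nonneg_right (exp_le_exp.2 (by norm_num)) hq.le
  set L := -log q
  have hL : 168 < L := by
    have := log_lt_log (mul_pos (exp_pos _) hq) hsmall
    rw [log_mul (exp_pos _).ne' hq.ne', log_exp, log_one] at this
    linarith
  have key : ∀ k : ℕ, ∀ J, pr act A J ≤ (exp (168 + (3 / 4) ^ k * (L - 168)) * q) ^ #J := by
    intro k
    induction k with
    | zero =>
      intro J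
      rw [pow_zero, one_mul, add_sub_cancel, exp_neg, exp_log hq, inv_mul_cancel₀ hq.ne', one_pow]
      exact pr_le_one act A J
    | succ k ih =>
      intro J
      have h1 : (3 / 4 : ℝ) ^ k * (L - 168) ≤ L - 168 :=
        mul_le_of_le_one_left (by linarith) (pow_le_one₀ (by norm_num) (by norm_num))
      have := improve act hq hA ih (show 0 ≤ -log q - 3 / 4 * (168 + (3 / 4) ^ k * (L - 168)) - 32 by
        linarith) J
      rw [show 3 / 4 * (168 + (3 / 4 : ℝ) ^ k * (L - 168)) + 42 =
        168 + (3 / 4) ^ (k + 1) * (L - 168) by ring] at this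
      exact this
  obtain ⟨k, hk⟩ := exists_pow_lt_of_lt_one (div_pos one_pos (by linarith : 0 < L - 168))
    (by norm_num : (3 / 4 : ℝ) < 1)
  rw [lt_div_iff₀ (by linarith)] at hk
  exact (key k J).trans (pow_le_pow_left₀ (by positivity)
    (mul_le_mul_of_nonneg_right (exp_le_exp.2 (by linarith)) hq.le) _)

end Vale.Agent.P064
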