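import Vale.Agent.P064.Graph

/-!
Peeling a vertex of small degree: in a graph feasible at density `q` with `log n ≤ n q ^ D`,
`k ≤ D` vertices have at most `16 ^ k n q ^ k` common neighbours, so a pattern all of whose
subpatterns have a vertex of degree at most `D` costs a constant per edge.
-/

namespace Vale.Agent.P064

open Finset

variable {n : ℕ}

/-- the vertices covered by a set of pairs -/
def supp (T : Finset (Sym2 (Fin n))) : Finset (Fin n) :=
  univ.filter fun x => ∃ e ∈ T, x ∈ e

/-- the product of `1 - i / n` over `i < v` -/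
noncomputable def omega (n v : ℕ) : ℝ := (n.descFactorial v : ℝ) / (n : ℝ) ^ v

theorem omega_nonneg (n v : ℕ) : 0 ≤ omega n v := by unfold omega; positivity

theorem omega_succ (hn : 0 < n) (v : ℕ) :
    omega n (v + 1) = omega n v * ((n - v : ℕ) : ℝ) / n := by
  have : (n : ℝ) ≠ 0 := by exact_mod_cast hn.ne'
  rw [omega, omega, Nat.descFactorial_succ, Nat.cast_mul, pow_succ]
  field_simp

theorem omega_antitone (hn : 0 < n) {u v : ℕ} (h : u ≤ v) : omega n v ≤ omega n u := by
  induction v, h using Nat.le_induction with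
  | base => exact le_rfl
  | succ v _ ih =>
    refine le_trans ?_ ih
    rw [omega_succ hn, div_le_iff₀ (by exact_mod_cast hn)]
    exact mul_le_mul_of_nonneg_left (by exact_mod_cast Nat.sub_le n v) (omega_nonneg n v)

theorem exp_le_omega (hn : 0 < n) {v : ℕ} (hv : v ≤ n) : Real.exp (-(v : ℝ)) ≤ omega n v := by
  have h1 : n ^ v * v.factorial ≤ n.descFactorial v * v ^ v := by
    rw [← Nat.descFactorial_self v, Nat.descFactorial_eq_prod_range,
      Nat.descFactorial_eq_prod_range, show n ^ v = ∏ _i ∈ range v, n by simp,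
      show v ^ v = ∏ _i ∈ range v, v by simp, ← prod_mul_distrib, ← prod_mul_distrib]
    refine prod_le_prod' fun i hi => ?_
    rw [mem_range] at hi
    rw [Nat.mul_sub, Nat.sub_mul]
    have : i * n ≥ i * v := Nat.mul_le_mul_left i hv
    have : i * v ≤ n * v := Nat.mul_le_mul_right v (by omega)
    rw [Nat.mul_comm n i, Nat.mul_comm n v] at *
    omega
  have h2 := Real.pow_div_factorial_le_exp (v : ℝ) (Nat.cast_nonneg v) v
  rw [div_le_iff₀ (by exact_mod_cast v.factorial_pos)] at h2
  have h3 : (n : ℝ) ^ v * v.factorial ≤ (n.descFactorial v : ℝ) * (v : ℝ) ^ v := by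
    exact_mod_cast h1
  have h4 : (n : ℝ) ^ v * v.factorial ≤
      (n.descFactorial v : ℝ) * (Real.exp v * v.factorial) :=
    h3.trans (mul_le_mul_of_nonneg_left h2 (Nat.cast_nonneg _))
  rw [← mul_assoc] at h4
  have h5 := le_of_mul_le_mul_right h4 (by exact_mod_cast v.factorial_pos)
  rw [omega, le_div_iff₀ (pow_pos (by exact_mod_cast hn) v), Real.exp_neg, inv_mul_eq_div,
    div_le_iff₀ (Real.exp_pos _)]
  exact h5

theorem im_pair (g : Equiv.Perm (Fin n)) (a b : Fin n) :
    pairAct g s(a, b) = s(g a, g b) := by simp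

theorem mem_im_iff {g : Equiv.Perm (Fin n)} {T : Finset (Sym2 (Fin n))}
    {A : Finset (Sym2 (Fin n))} :
    im pairAct g T ⊆ A ↔ ∀ e ∈ T, Sym2.map g e ∈ A := by
  simp only [im, map_eq_image, image_subset_iff]
  rfl

theorem card_supp_le (T : Finset (Sym2 (Fin n))) : (supp T).card ≤ 2 * T.card := by
  calc (supp T).card ≤ (T.biUnion fun e => e.toFinset).card :=
        card_le_card fun x hx => by
          simpa [supp] using hx
    _ ≤ ∑ e ∈ T, e.toFinset.card := card_biUnion_le
    _ ≤ ∑ _e ∈ T, 2 := sum_le_sum fun e _ => by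
        induction e using Sym2.ind with
        | _ a b =>
          calc (s(a, b).toFinset).card ≤ ({a, b} : Finset (Fin n)).card :=
                card_le_card fun x hx => by simpa using hx
            _ ≤ 2 := card_le_two
    _ = _ := by simp [mul_comm]

theorem pr_im {A T : Finset (Sym2 (Fin n))} (g : Equiv.Perm (Fin n)) :
    pr pairAct A (im pairAct g T) = pr pairAct A T := by
  unfold pr
  congr 2
  refine Finset.card_nbij' (fun h => h * g) (fun h => h * g⁻¹) ?_ ?_
    (fun h _ => mul_inv_cancel_right h g) (fun h _ => inv_mul_cancel_right h g) <;>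
    intro h hh <;> simp only [coe_filter, mem_univ, true_and, Set.mem_ofPred_eq] at hh ⊢
  · rwa [im_mul]
  · rwa [← im_mul, inv_mul_cancel_right]

/-- common neighbours of `X` -/
def common (A : Finset (Sym2 (Fin n))) (X : Finset (Fin n)) : Finset (Fin n) :=
  univ.filter fun y => ∀ x ∈ X, s(x, y) ∈ A

theorem codeg_le {q : ℝ} (hq : 0 < q) (hq1 : q ≤ 1) {A : Finset (Sym2 (Fin n))}
    (hA : A ⊆ pairs n) (hspr : Spr pairAct q A) {D : ℕ} (hD : Real.log n ≤ n * q ^ D)
    {X : Finset (Fin n)} (hX : 1 ≤ X.card) (hXD : X.card ≤ D) :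
    ((common A X).card : ℝ) ≤ 16 ^ X.card * n * q ^ X.card := by
  classical
  set k := X.card
  set Y := common A X
  set c := Y.card
  have hn : 0 < n := lt_of_lt_of_le hX (by simpa using card_le_univ X)
  have hn1 : (1 : ℝ) ≤ n := by exact_mod_cast hn
  set S := (X ×ˢ Y).image fun z => s(z.1, z.2)
  have hSA : S ⊆ A := by
    intro e he
    simp only [S, mem_image, mem_product, Prod.exists] at he
    obtain ⟨x, y, ⟨hx, hy⟩, rfl⟩ := he
    exact (mem_filter.1 hy).2 x hx
  have hdis : ∀ y ∈ Y, y ∉ X := fun y hy hyX => mem_pairs.1 (hA ((mem_filter.1 hy).2 y hyX)) rfl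
  have hcard : S.card = k * c := by
    rw [card_image_of_injOn, card_product]
    rintro ⟨x, y⟩ hz ⟨x', y'⟩ hz' h
    simp only [coe_product, Set.mem_prod, mem_coe] at hz hz'
    rcases Sym2.eq_iff.1 h with ⟨h1, h2⟩ | ⟨h1, h2⟩
    · exact Prod.ext h1 h2
    · simp only at h2
      exact absurd (h2.symm ▸ hz'.1 : y ∈ X) (hdis y hz.2)
  have horb : (orb pairAct S).card ≤ n ^ k * n.choose c := by
    let enc : (X → Fin n) × Finset (Fin n) → Finset (Sym2 (Fin n)) := fun z =>
      (X.attach ×ˢ z.2).image fun w => s(z.1 w.1, w.2)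
    calc (orb pairAct S).card ≤ (((univ : Finset (X → Fin n)) ×ˢ
          (univ : Finset (Fin n)).powersetCard c).image enc).card := by
          refine card_le_card fun T hT => ?_
          simp only [orb, mem_image, mem_univ, true_and] at hT
          obtain ⟨g, rfl⟩ := hT
          refine mem_image.2 ⟨(fun x => g x.1, Y.map g.toEmbedding), mem_product.2 ⟨mem_univ _,
            mem_powersetCard.2 ⟨subset_univ _, card_map _⟩⟩, ?_⟩
          ext e
          simp only [enc, S, im, mem_image, mem_product, mem_attach, true_and, mem_map,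
            Equiv.coe_toEmbedding, Prod.exists, pairAct_apply, Subtype.exists]
          constructor
          · rintro ⟨x, hx, z, ⟨y, hy, rfl⟩, rfl⟩
            exact ⟨s(x, y), ⟨x, y, ⟨hx, hy⟩, rfl⟩, rfl⟩
          · rintro ⟨d, ⟨x, y, ⟨hx, hy⟩, rfl⟩, rfl⟩
            exact ⟨x, hx, g y, ⟨y, hy, rfl⟩, rfl⟩
      _ ≤ _ := card_image_le
      _ = _ := by simp [k, c]
  have h1 : (1 : ℝ) ≤ (n : ℝ) ^ k * (n.choose c) * (q ^ k) ^ c := by
    have h := hspr S hSA
    rw [hcard, pow_mul] at h
    exact h.trans (mul_le_mul_of_nonneg_right (by exact_mod_cast horb) (by positivity))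
  have hk2 : (k : ℝ) ≤ 16 ^ k := by exact_mod_cast (Nat.lt_pow_self (by norm_num : 1 < 16)).le
  by_contra hbig
  push Not at hbig
  have hc0 : (0 : ℝ) < c := lt_trans (by positivity) hbig
  set a : ℝ := (n : ℝ) * q ^ k
  have ha : 0 < a := by positivity
  have h16 : (16 : ℝ) ≤ 16 ^ k := le_self_pow₀ (by norm_num) (by omega)
  have hca : 16 * a ≤ c := by
    have := mul_le_mul_of_nonneg_right h16 ha.le
    rw [← mul_assoc] at this
    linarith
  have hlog : (k : ℝ) * Real.log n < c := by
    have h2 : Real.log n ≤ a :=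
      hD.trans (mul_le_mul_of_nonneg_left (pow_le_pow_of_le_one hq.le hq1 hXD) (by positivity))
    calc (k : ℝ) * Real.log n ≤ 16 ^ k * a := mul_le_mul hk2 h2 (Real.log_natCast_nonneg n)
          (by positivity)
      _ < c := by rw [← mul_assoc]; exact hbig
  have h3 : (n.choose c : ℝ) * (q ^ k) ^ c ≤ Real.exp (-(c : ℝ)) := by
    have e1 : (n.choose c : ℝ) ≤ (n : ℝ) ^ c / c.factorial := Nat.choose_le_pow_div c n
    have e2 := Real.pow_div_factorial_le_exp (c : ℝ) hc0.le c
    have e3 : Real.exp (c : ℝ) * (a / c) ^ c ≤ Real.exp (-(c : ℝ)) := by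
      rw [← Real.rpow_natCast (a / c) c]
      have hac : a / c ≤ Real.exp (-2) := by
        rw [div_le_iff₀ hc0, Real.exp_neg, inv_mul_eq_div, le_div_iff₀ (Real.exp_pos _)]
        have : Real.exp 2 ≤ 16 := by
          rw [show (2 : ℝ) = 1 + 1 by norm_num, Real.exp_add]
          nlinarith [Real.exp_one_lt_d9, Real.exp_pos 1]
        nlinarith
      rw [Real.rpow_natCast]
      calc Real.exp (c : ℝ) * (a / c) ^ c ≤ Real.exp (c : ℝ) * Real.exp (-2) ^ c :=
            mul_le_mul_of_nonneg_left (pow_le_pow_left₀ (by positivity) hac c) (Real.exp_pos _).le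
        _ = _ := by rw [← Real.exp_nat_mul, ← Real.exp_add]; ring_nf
    refine le_trans ?_ e3
    calc (n.choose c : ℝ) * (q ^ k) ^ c ≤ (n : ℝ) ^ c / c.factorial * (q ^ k) ^ c :=
          mul_le_mul_of_nonneg_right e1 (by positivity)
      _ = (c : ℝ) ^ c / c.factorial * (a / c) ^ c := by
          rw [div_pow a, show a ^ c = (n : ℝ) ^ c * (q ^ k) ^ c from mul_pow _ _ _]
          field_simp
      _ ≤ _ := mul_le_mul_of_nonneg_right e2 (by positivity)
  have h4 : (1 : ℝ) ≤ (n : ℝ) ^ k * Real.exp (-(c : ℝ)) := by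
    refine h1.trans ?_
    rw [mul_assoc]
    exact mul_le_mul_of_nonneg_left h3 (by positivity)
  have h5 : (n : ℝ) ^ k * Real.exp (-(c : ℝ)) < 1 := by
    rw [show (n : ℝ) ^ k = Real.exp (k * Real.log n) by
      rw [Real.exp_nat_mul, Real.exp_log (by linarith)], ← Real.exp_add, Real.exp_lt_one_iff]
    linarith
  linarith

/-- one vertex of `T` peeled off -/
theorem peel_step {A T : Finset (Sym2 (Fin n))} (hT : T ⊆ pairs n) {x : Fin n} (hx : x ∈ supp T)
    {M : ℝ}
    (hM : ∀ X : Finset (Fin n), X.card = (T.filter (x ∈ ·)).card → ((common A X).card : ℝ) ≤ M) :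
    pr pairAct A T * ((n - ((supp T).card - 1) : ℕ) : ℝ) ≤
      pr pairAct A (T.filter (x ∉ ·)) * M := by
  classical
  set T' := T.filter (x ∉ ·)
  set R := (supp T).erase x
  set ys := R.filter fun y => s(x, y) ∈ T
  have hys : ys.card = (T.filter (x ∈ ·)).card := by
    rw [← card_image_of_injOn (f := fun y => s(x, y)) (fun a _ b _ h => Sym2.congr_right.1 h)]
    congr 1
    ext e
    simp only [ys, R, supp, mem_image, mem_filter, mem_erase, mem_univ, true_and]
    constructor
    · rintro ⟨y, ⟨-, hy⟩, rfl⟩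
      exact ⟨hy, Sym2.mem_mk_left x y⟩
    · rintro ⟨he, hxe⟩
      obtain ⟨y, rfl⟩ := hxe
      refine ⟨y, ⟨⟨?_, s(x, y), he, Sym2.mem_mk_right x y⟩, he⟩, rfl⟩
      exact fun h => mem_pairs.1 (hT he) (by simp [h])
  set P := univ.filter fun g : Equiv.Perm (Fin n) => im pairAct g T ⊆ A
  set Q := univ.filter fun g : Equiv.Perm (Fin n) => im pairAct g T' ⊆ A
  set Z := (univ : Finset (Fin n)) \ R
  set W := Q.sigma fun h => Z.filter fun z => h z ∈ common A (ys.map h.toEmbedding)
  have hR : x ∉ R := notMem_erase _ _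
  have hfix : ∀ z ∈ Z, ∀ a ∈ R, Equiv.swap x z a = a := fun z hz a ha =>
    Equiv.swap_apply_of_ne_of_ne (fun h => hR (h ▸ ha))
      (fun h => (mem_sdiff.1 hz).2 (h ▸ ha))
  have hinj : (P ×ˢ Z).card ≤ W.card := by
    refine card_le_card_of_injOn (fun w => ⟨w.1 * Equiv.swap x w.2, w.2⟩) ?_ ?_
    · rintro ⟨g, z⟩ hw
      simp only [coe_product, Set.mem_prod, mem_coe, P, mem_filter, mem_univ, true_and] at hw
      obtain ⟨hg, hz⟩ := hw
      rw [mem_im_iff] at hg
      simp only [W, Q, mem_coe, mem_sigma, mem_filter, mem_univ, true_and]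
      refine ⟨mem_im_iff.2 fun e he => ?_, hz, ?_⟩
      · obtain ⟨heT, hxe⟩ := mem_filter.1 he
        have : Sym2.map (g * Equiv.swap x z) e = Sym2.map g e := by
          refine Sym2.map_congr fun a ha => ?_
          simp only [Equiv.Perm.mul_apply]
          rw [hfix z hz a (mem_erase.2 ⟨fun h => hxe (h ▸ ha),
            mem_filter.2 ⟨mem_univ _, e, heT, ha⟩⟩)]
        rw [this]
        exact hg e heT
      · simp only [common, mem_filter, mem_univ, true_and, mem_map, Equiv.coe_toEmbedding,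
          Equiv.Perm.mul_apply, Equiv.swap_apply_right, forall_exists_index, and_imp,
          forall_apply_eq_imp_iff₂]
        intro y hy
        obtain ⟨hyR, hyT⟩ := mem_filter.1 hy
        rw [hfix z hz y hyR, Sym2.eq_swap]
        have := hg _ hyT
        simpa using this
    · rintro ⟨g, z⟩ _ ⟨g', z'⟩ _ h
      simp only [Sigma.mk.injEq, heq_eq_eq] at h
      obtain ⟨h1, rfl⟩ := h
      exact Prod.ext (mul_right_cancel h1) rfl
  have hW : (W.card : ℝ) ≤ Q.card * M := by
    rw [card_sigma, Nat.cast_sum, ← nsmul_eq_mul]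
    refine sum_le_card_nsmul _ _ _ fun h _ => ?_
    refine le_trans ?_ (hM (ys.map h.toEmbedding) (by rw [card_map, hys]))
    exact_mod_cast card_le_card_of_injOn (f := fun z => h z) (fun z hz => (mem_filter.1 hz).2)
      h.injective.injOn
  have hZ : Z.card = n - ((supp T).card - 1) := by
    simp only [Z, R, card_univ_sdiff, Fintype.card_fin, card_erase_of_mem hx]
  have hG : (0 : ℝ) < Fintype.card (Equiv.Perm (Fin n)) := by exact_mod_cast Fintype.card_pos
  rw [← hZ]
  unfold pr
  rw [div_mul_eq_mul_div, div_mul_eq_mul_div, div_le_div_iff_of_pos_right hG]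
  refine le_trans ?_ hW
  rw [← Nat.cast_mul, ← card_product]
  exact_mod_cast hinj

/-- every nonempty part of `A` has a vertex of degree at most `D` -/
def Degen (A : Finset (Sym2 (Fin n))) (D : ℕ) : Prop :=
  ∀ S ⊆ A, S.Nonempty → ∃ x, 1 ≤ (S.filter (x ∈ ·)).card ∧ (S.filter (x ∈ ·)).card ≤ D

theorem pr_omega_le {q : ℝ} (hq : 0 < q) (hq1 : q ≤ 1) {A : Finset (Sym2 (Fin n))}
    (hn : 0 < n) (hA : A ⊆ pairs n) (hspr : Spr pairAct q A) {D : ℕ}
    (hD : Real.log n ≤ n * q ^ D) (hdeg : Degen A D) :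
    ∀ T ⊆ A, pr pairAct A T * omega n (supp T).card ≤ (16 * q) ^ T.card := by
  intro T
  induction T using Finset.strongInduction with
  | H T ih =>
  intro hTA
  rcases T.eq_empty_or_nonempty with rfl | hne
  · simp [supp, omega, pr_le_one]
  obtain ⟨x, hk1, hkD⟩ := hdeg T hTA hne
  set k := (T.filter (x ∈ ·)).card
  set T' := T.filter (x ∉ ·)
  obtain ⟨e, he⟩ := card_pos.1 hk1
  obtain ⟨heT, hxe⟩ := mem_filter.1 he
  have hx : x ∈ supp T := mem_filter.2 ⟨mem_univ _, e, heT, hxe⟩
  have hss : T' ⊂ T := (filter_subset _ _).ssubset_of_ne fun h => by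
    have h1 : e ∈ T' := by rw [show T' = T from h]; exact heT
    exact (mem_filter.1 h1).2 hxe
  have hcard : k + T'.card = T.card := card_filter_add_card_filter_not _
  have hsupp : supp T' ⊆ (supp T).erase x := by
    intro y hy
    obtain ⟨-, d, hd, hyd⟩ := mem_filter.1 hy
    obtain ⟨hdT, hxd⟩ := mem_filter.1 hd
    exact mem_erase.2 ⟨fun h => hxd (h ▸ hyd), mem_filter.2 ⟨mem_univ _, d, hdT, hyd⟩⟩
  set v := (supp T).card
  have hv : 1 ≤ v := card_pos.2 ⟨x, hx⟩
  have hv' : (supp T').card ≤ v - 1 := by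
    rw [← card_erase_of_mem hx]
    exact card_le_card hsupp
  have hstep := peel_step (A := A) (hTA.trans hA) hx (M := 16 ^ k * n * q ^ k) fun X hXc => by
    have hk : X.card = k := hXc
    rw [← hk]
    exact codeg_le hq hq1 hA hspr hD (hk ▸ hk1) (hk ▸ hkD)
  have hnR : (0 : ℝ) < n := by exact_mod_cast hn
  rw [show v = v - 1 + 1 by omega, omega_succ hn]
  calc pr pairAct A T * (omega n (v - 1) * ((n - (v - 1) : ℕ) : ℝ) / n)
      = pr pairAct A T * ((n - (v - 1) : ℕ) : ℝ) * omega n (v - 1) / n := by ring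
    _ ≤ pr pairAct A T' * (16 ^ k * n * q ^ k) * omega n (v - 1) / n :=
        div_le_div_of_nonneg_right (mul_le_mul_of_nonneg_right hstep (omega_nonneg _ _)) hnR.le
    _ = pr pairAct A T' * omega n (v - 1) * (16 * q) ^ k := by
        rw [mul_pow]; field_simp
    _ ≤ pr pairAct A T' * omega n (supp T').card * (16 * q) ^ k := by
        have := pr_nonneg pairAct A T'
        gcongr
        exact omega_antitone hn hv'
    _ ≤ (16 * q) ^ T'.card * (16 * q) ^ k :=
        mul_le_mul_of_nonneg_right (ih T' hss (hss.subset.trans hTA)) (by positivity)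
    _ = _ := by rw [← pow_add, add_comm, hcard]

/-- **The peeling bound for degenerate graphs.** -/
theorem pr_le_degen {q : ℝ} (hq : 0 < q) {A : Finset (Sym2 (Fin n))} (hn : 0 < n)
    (hA : A ⊆ pairs n) (hspr : Spr pairAct q A) {D : ℕ} (hD : Real.log n ≤ n * q ^ D)
    (hdeg : Degen A D) (T : Finset (Sym2 (Fin n))) :
    pr pairAct A T ≤ (144 * q) ^ T.card := by
  rcases lt_or_ge 1 q with hq1 | hq1
  · exact (pr_le_one pairAct A T).trans (one_le_pow₀ (by linarith))
  by_cases h0 : pr pairAct A T = 0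
  · rw [h0]; positivity
  obtain ⟨g, hg⟩ : ∃ g, im pairAct g T ⊆ A := by
    by_contra hno
    push Not at hno
    exact h0 (by rw [pr, filter_false_of_mem fun g _ => hno g]; simp)
  rw [← pr_im g, ← card_im pairAct g T]
  set U := im pairAct g T
  have h := pr_omega_le hq hq1 hn hA hspr hD hdeg U hg
  have hv : (supp U).card ≤ n := by simpa using card_le_univ (supp U)
  have h1 : Real.exp (-2) ^ U.card ≤ omega n (supp U).card := by
    refine le_trans ?_ (exp_le_omega hn hv)
    rw [← Real.exp_nat_mul]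
    refine Real.exp_le_exp.2 ?_
    have : ((supp U).card : ℝ) ≤ 2 * U.card := by exact_mod_cast card_supp_le U
    linarith
  have h9 : (1 : ℝ) / 9 ≤ Real.exp (-2) := by
    rw [Real.exp_neg, one_div]
    refine inv_anti₀ (Real.exp_pos _) ?_
    rw [show (2 : ℝ) = 1 + 1 by norm_num, Real.exp_add]
    nlinarith [Real.exp_one_lt_d9, Real.exp_pos 1]
  have hP := pr_nonneg pairAct A U
  calc pr pairAct A U = pr pairAct A U * (1 / 9) ^ U.card * 9 ^ U.card := by
        rw [mul_assoc, ← mul_pow]; norm_num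
    _ ≤ pr pairAct A U * omega n (supp U).card * 9 ^ U.card := by
        gcongr
        exact (pow_le_pow_left₀ (by norm_num) h9 _).trans h1
    _ ≤ (16 * q) ^ U.card * 9 ^ U.card := mul_le_mul_of_nonneg_right h (by positivity)
    _ = _ := by rw [← mul_pow]; ring_nf

variable {V : Type} [Fintype V] (H : SimpleGraph V) (φ : V ↪ Fin n)

/-- the two thresholds from a spread bound -/
theorem bounds_of_spread (hn : 2 ≤ n) {ν : ℝ} (hν : 0 < ν)
    (hpr : ∀ T, pr pairAct (key H φ).2 T ≤ ν ^ T.card) :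
    pT n H ≤ ν ∧ pc n H ≤ 1536 * ν * Real.log n := by
  classical
  set A := (key H φ).2
  constructor
  · refine le_trans (csInf_le ⟨0, fun x hx => hx.1⟩ ?_) (min_le_left ν 1)
    refine ⟨le_min hν.le zero_le_one, min_le_right _ _, fun F => ?_⟩
    let ψ₀ : F.verts → Fin n := fun v => φ v.1
    have h₀ : Function.Injective ψ₀ := φ.injective.comp Subtype.val_injective
    have h1 := copyCount_le H φ F.coe h₀
    rw [card_filter_cop] at h1
    rw [meanCopies_eq F.coe _ h₀]
    have h3 : pr pairAct A (key F.coe ψ₀).2 ≤ (min ν 1) ^ (key F.coe ψ₀).2.card := by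
      rcases min_cases ν 1 with ⟨e, _⟩ | ⟨e, _⟩ <;> rw [e]
      · exact hpr _
      · rw [one_pow]; exact pr_le_one _ _ _
    have h4 := mul_le_mul_of_nonneg_left h3 (Nat.cast_nonneg ((cop F.coe ψ₀).card) : (0 : ℝ) ≤ _)
    have h5 : (0 : ℝ) ≤ H.copyCount F.coe := Nat.cast_nonneg _
    linarith
  · set r := 256 * ν * (A.card).size with hr
    have hrl : r ≤ 1536 * ν * Real.log n := by
      calc r ≤ 256 * ν * (6 * Real.log n) :=
            mul_le_mul_of_nonneg_left (size_le_log hn (edges_card H φ)) (by positivity)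
        _ = _ := by ring
    refine le_trans ?_ hrl
    rcases le_or_gt r 1 with h1 | h1
    · exact csInf_le ⟨0, fun x hx => hx.1⟩
        ⟨by positivity, h1, pc_le_of_spread H φ hν hpr le_rfl h1⟩
    · refine le_trans (csInf_le ⟨0, fun x hx => hx.1⟩ ⟨zero_le_one, le_rfl, ?_⟩) h1.le
      have hfull : probCopy n 1 H = ∑ G : SimpleGraph (Fin n),
          wgt n 1 G * if 0 < G.copyCount H then 1 else 0 := by
        simp [probCopy, mul_ite]
      rw [hfull]
      simp only [copyCount_fin H φ.injective]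
      rw [sum_wgt 1 fun U => if 0 < ((cop H φ).filter fun k => k.2 ⊆ U).card then (1 : ℝ) else 0]
      rw [ev, Finset.sum_eq_single (pairs n) (fun U hU hne => ?_)
        (fun h => absurd (mem_powerset_self _) h)]
      · rw [if_pos (card_pos.2 ⟨key H φ, mem_filter.2 ⟨key_mem_cop H φ.injective φ.injective,
          cop_snd_subset H φ.injective (key_mem_cop H φ.injective φ.injective)⟩⟩)]
        norm_num
      · have : (pairs n \ U).card ≠ 0 := fun h0 => hne
          (subset_antisymm (mem_powerset.1 hU) (sdiff_eq_empty_iff_subset.1 (card_eq_zero.1 h0)))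
        simp [zero_pow this]

theorem degen_key {D : ℕ}
    (hdeg : ∀ F : H.Subgraph, F.edgeSet.Nonempty →
      ∃ v, 1 ≤ (F.neighborSet v).ncard ∧ (F.neighborSet v).ncard ≤ D) :
    Degen (key H φ).2 D := by
  classical
  intro S hS hne
  set K := spanned H φ S
  obtain ⟨e, he⟩ := hne
  have h := hS he
  simp only [key, mem_image, Set.Finite.mem_toFinset] at h
  obtain ⟨d, hd, rfl⟩ := h
  obtain ⟨v, h1, h2⟩ := hdeg K (by
    induction d using Sym2.ind with
    | _ a b => exact ⟨s(a, b), hd, he⟩)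
  refine ⟨φ v, ?_⟩
  have : (S.filter (φ v ∈ ·)).card = (K.neighborSet v).ncard := by
    rw [Set.ncard_eq_toFinset_card',
      ← card_image_of_injective _ (show Function.Injective fun w => s(φ v, φ w) from
        fun a b h => φ.injective (Sym2.congr_right.1 h))]
    congr 1
    ext e
    simp only [mem_filter, mem_image, Set.mem_toFinset]
    constructor
    · rintro ⟨he, hv⟩
      have h := hS he
      simp only [key, mem_image, Set.Finite.mem_toFinset] at h
      obtain ⟨d, hd, rfl⟩ := h
      obtain ⟨u, hu, huv⟩ := Sym2.mem_map.1 hv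
      obtain rfl := φ.injective huv
      obtain ⟨w, rfl⟩ := hu
      exact ⟨w, ⟨hd, he⟩, rfl⟩
    · rintro ⟨w, hw, rfl⟩
      exact ⟨hw.2, Sym2.mem_mk_left _ _⟩
  rw [this]
  exact ⟨h1, h2⟩

end Vale.Agent.P064
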