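import Vale.Agent.P064.Sym
import Vale.Agent.P064.Entropy

/-!
States of the sampling process and one step of it.  A state is a finite family of nonnegative
weight functions on subsets of `A`; index `i` is a context, `μ i` the weights of the sampled set.
-/

namespace Vale.Agent.P064

open Finset Real

set_option linter.unusedSectionVars false

variable {G X : Type} [Group G] [Fintype G] [Fintype X] [DecidableEq X]
variable (act : G →* Equiv.Perm X)
variable {ι : Type} [Fintype ι]

/-- translation of finite sets as a permutation -/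
def imH : G →* Equiv.Perm (Finset X) where
  toFun g := ⟨im act g, im act g⁻¹, im_inv_im act g, im_im_inv act g⟩
  map_one' := Equiv.ext fun S => im_one act S
  map_mul' g h := Equiv.ext fun S => im_mul act g h S

/-- translation of pairs of finite sets -/
def imH2 : G →* Equiv.Perm (Finset X × Finset X) where
  toFun g := Equiv.prodCongr (imH act g) (imH act g)
  map_one' := by ext p <;> simp
  map_mul' g h := by ext p <;> simp

/-- average over a group of permutations -/
noncomputable def avg {α : Type*} (σ : G →* Equiv.Perm α) (M : α → ℝ) (a : α) : ℝ :=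
  (∑ g, M (σ g a)) / Fintype.card G

/-- mass of a context -/
noncomputable def mass (μ : ι → Finset X → ℝ) (i : ι) : ℝ := ∑ v, μ i v

/-- two independent samples in a context -/
noncomputable def pair (μ : ι → Finset X → ℝ) (i : ι) (p : Finset X × Finset X) : ℝ :=
  μ i p.1 * μ i p.2 / mass μ i

/-- law of the translated set -/
noncomputable def pv (μ : ι → Finset X → ℝ) : Finset X → ℝ :=
  avg (imH act) fun v => ∑ i, μ i v

/-- law of two translated samples -/
noncomputable def wpair (μ : ι → Finset X → ℝ) : Finset X × Finset X → ℝ :=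
  avg (imH2 act) fun p => ∑ i, pair μ i p

/-- law of a translated sample and the overlap -/
noncomputable def pvo (μ : ι → Finset X → ℝ) (v o : Finset X) : ℝ :=
  ∑ v', if v ∩ v' = o then wpair act μ (v, v') else 0

/-- law of the translated overlap -/
noncomputable def po (μ : ι → Finset X → ℝ) (o : Finset X) : ℝ := ∑ v, pvo act μ v o

/-- the sample and a fake overlap -/
noncomputable def ker (μ : ι → Finset X → ℝ) (i : ι) (v u : Finset X) : ℝ :=
  μ i v * pvo act μ v u / pv act μ v

/-- the fake overlap -/
noncomputable def fake (μ : ι → Finset X → ℝ) (i : ι) (u : Finset X) : ℝ := ∑ v, ker act μ i v u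

/-- two samples in the new contexts; the fake overlap is shown with probability one eighth -/
noncomputable def child (μ : ι → Finset X → ℝ) :
    ι × Option (Finset X) → Finset X × Finset X → ℝ
  | (i, none), p => 7 / 8 * pair μ i p
  | (i, some u), p => 1 / 8 * (ker act μ i p.1 u * μ i p.2 / mass μ i)

/-- the next state: union of two samples -/
noncomputable def next (μ : ι → Finset X → ℝ) (c : ι × Option (Finset X)) : Finset X → ℝ :=
  push (fun p : Finset X × Finset X => p.1 ∪ p.2) (child act μ c)

/-- information of the translated set on the translation and context -/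
noncomputable def info (μ : ι → Finset X → ℝ) : ℝ := ent (pv act μ) - ∑ i, ent (μ i)

/-- mean size -/
noncomputable def size (μ : ι → Finset X → ℝ) : ℝ := ∑ i, ∑ v, μ i v * #v

/-- mean overlap of two samples -/
noncomputable def ovl (μ : ι → Finset X → ℝ) : ℝ := ∑ i, ∑ p, pair μ i p * #(p.1 ∩ p.2)

/-- weight of the sets through a point -/
noncomputable def marg (M : Finset X → ℝ) (y : X) : ℝ := ∑ v, if y ∈ v then M v else 0

/-- the function `x^(3/2)` -/
noncomputable def rho (x : ℝ) : ℝ := x * √x

/-- the potential -/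
noncomputable def pot (μ : ι → Finset X → ℝ) : ℝ :=
  ∑ i, ∑ y, mass μ i * (marg (μ i) y / mass μ i - rho (marg (μ i) y / mass μ i))

/-- correlation term -/
noncomputable def psi (μ : ι → Finset X → ℝ) : ℝ :=
  ∑ i, ∑ y, ∑ u, fake act μ i u * rho (marg (fun v => ker act μ i v u) y / fake act μ i u)

/-- a probability state on subsets of `A` -/
structure Valid (A : Finset X) (μ : ι → Finset X → ℝ) : Prop where
  nonneg : ∀ i v, 0 ≤ μ i v
  supp : ∀ i v, μ i v ≠ 0 → v ⊆ A
  total : ∑ i, ∑ v, μ i v = 1

variable {α : Type*} [Fintype α] (σ : G →* Equiv.Perm α)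

theorem avg_nonneg {M : α → ℝ} (h : ∀ a, 0 ≤ M a) (a : α) : 0 ≤ avg σ M a :=
  div_nonneg (sum_nonneg fun _ _ => h _) (Nat.cast_nonneg _)

theorem avg_smul_apply (M : α → ℝ) (h : G) (a : α) : avg σ M (σ h a) = avg σ M a := by
  unfold avg
  congr 1
  rw [← Equiv.sum_comp (Equiv.mulRight h) fun g => M (σ g a)]
  exact sum_congr rfl fun g _ => by simp

theorem le_avg {M : α → ℝ} (h : ∀ a, 0 ≤ M a) (a : α) (ha : M a ≠ 0) : 0 < avg σ M a :=
  div_pos (((h a).lt_of_ne (Ne.symm ha)).trans_le (by
    simpa using single_le_sum (fun g _ => h (σ g a)) (mem_univ (1 : G))))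
    (Nat.cast_pos.2 Fintype.card_pos)

theorem sum_avg_mul (M : α → ℝ) {φ : α → ℝ} (hφ : ∀ g a, φ (σ g a) = φ a) :
    ∑ a, avg σ M a * φ a = ∑ a, M a * φ a := by
  have h : ∀ g, ∑ a, M (σ g a) * φ a = ∑ a, M a * φ a := fun g => by
    rw [← Equiv.sum_comp (σ g) fun a => M a * φ a]
    exact sum_congr rfl fun a _ => by rw [hφ]
  simp only [avg, div_mul_eq_mul_div, sum_mul, ← sum_div]
  rw [sum_comm, sum_congr rfl fun g _ => h g, sum_const, nsmul_eq_mul, card_univ,
    mul_div_assoc]
  field_simp

theorem sum_avg (M : α → ℝ) : ∑ a, avg σ M a = ∑ a, M a := by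
  simpa using sum_avg_mul σ M (φ := fun _ => 1) fun _ _ => rfl

variable {A : Finset X} {μ : ι → Finset X → ℝ}

theorem Valid.mass_nonneg (h : Valid A μ) (i : ι) : 0 ≤ mass μ i :=
  sum_nonneg fun v _ => h.nonneg i v

theorem Valid.eq_zero (h : Valid A μ) {i : ι} (hm : mass μ i = 0) (v : Finset X) : μ i v = 0 :=
  (sum_eq_zero_iff_of_nonneg fun v _ => h.nonneg i v).1 hm v (mem_univ v)

theorem pair_swap (i : ι) (v v' : Finset X) : pair μ i (v, v') = pair μ i (v', v) := by
  simp only [pair, mul_comm (μ i v)]

theorem sum_pair (h : Valid A μ) (i : ι) (v : Finset X) : ∑ v', pair μ i (v, v') = μ i v := by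
  simp only [pair]
  rw [← sum_div, ← mul_sum]
  by_cases hm : mass μ i = 0
  · simp [h.eq_zero hm v]
  · exact mul_div_cancel_right₀ _ hm

theorem wpair_nonneg (h : Valid A μ) (p : Finset X × Finset X) : 0 ≤ wpair act μ p :=
  avg_nonneg _ (fun _ => sum_nonneg fun i _ =>
    div_nonneg (mul_nonneg (h.nonneg _ _) (h.nonneg _ _)) (h.mass_nonneg i)) p

theorem pvo_nonneg (h : Valid A μ) (v o : Finset X) : 0 ≤ pvo act μ v o :=
  sum_nonneg fun v' _ => by split <;> simp [wpair_nonneg act h]

theorem sum_wpair (h : Valid A μ) (v : Finset X) :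
    ∑ v', wpair act μ (v, v') = pv act μ v := by
  simp only [wpair, pv, avg, ← sum_div]
  congr 1
  rw [sum_comm]
  refine sum_congr rfl fun g _ => ?_
  calc ∑ v', ∑ i, pair μ i (imH2 act g (v, v'))
      = ∑ v', ∑ i, pair μ i (imH act g v, imH act g v') := rfl
    _ = ∑ v', ∑ i, pair μ i (imH act g v, v') :=
        Equiv.sum_comp (imH act g) fun v' => ∑ i, pair μ i (imH act g v, v')
    _ = _ := by rw [sum_comm]; exact sum_congr rfl fun i _ => sum_pair h i _

theorem sum_pvo (h : Valid A μ) (v : Finset X) : ∑ o, pvo act μ v o = pv act μ v := by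
  simp only [pvo]
  rw [sum_comm]
  simp [sum_wpair act h]

theorem ker_nonneg (h : Valid A μ) (i : ι) (v u : Finset X) : 0 ≤ ker act μ i v u :=
  div_nonneg (mul_nonneg (h.nonneg i v) (pvo_nonneg act h v u))
    (avg_nonneg _ (fun _ => sum_nonneg fun i _ => h.nonneg i _) v)

theorem sum_ker (h : Valid A μ) (i : ι) (v : Finset X) : ∑ u, ker act μ i v u = μ i v := by
  simp only [ker]
  rw [← sum_div, ← mul_sum, sum_pvo act h]
  by_cases hv : μ i v = 0
  · simp [hv]
  · have : 0 < pv act μ v := le_avg _ (fun a => sum_nonneg fun i _ => h.nonneg i a) v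
      (((h.nonneg i v).lt_of_ne (Ne.symm hv)).trans_le
        (single_le_sum (fun j _ => h.nonneg j v) (mem_univ i))).ne'
    exact mul_div_cancel_right₀ _ this.ne'

theorem ker_subset (i : ι) {v u : Finset X} (hk : ker act μ i v u ≠ 0) : u ⊆ v := by
  by_contra hne
  refine hk ?_
  have : pvo act μ v u = 0 := sum_eq_zero fun v' _ => if_neg fun (e : v ∩ v' = u) => hne (e ▸ inter_subset_left)
  simp [ker, this]

theorem ker_supp (h : Valid A μ) (i : ι) {v u : Finset X} (hk : ker act μ i v u ≠ 0) : v ⊆ A :=
  h.supp i v fun e => hk (by simp [ker, e])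

end Vale.Agent.P064
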