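import Vale.Agent.P064.State

/-!
The entropy inequalities in one step of the sampling process.
-/

namespace Vale.Agent.P064

open Finset Real

set_option linter.unusedSectionVars false

variable {G : Type} [Group G] [Fintype G]

section general

variable {α β κ : Type*} [Fintype α] [Fintype β] [Fintype κ] [DecidableEq β]
variable (σ : G →* Equiv.Perm α) (τ : G →* Equiv.Perm β)

theorem push_comp (f : α → β) (M : α → ℝ) (hf : ∀ g a, f (σ g a) = τ g (f a)) (g : G) (b : β) :
    push f (fun a => M (σ g a)) b = push f M (τ g b) := by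
  simp only [push]
  rw [← Equiv.sum_comp (σ g) fun a => if f a = τ g b then M a else 0]
  simp [hf]

theorem push_avg (f : α → β) (M : α → ℝ) (hf : ∀ g a, f (σ g a) = τ g (f a)) :
    push f (avg σ M) = avg τ (push f M) := by
  funext b
  simp only [avg]
  rw [sum_congr rfl fun g _ => (push_comp σ τ f M hf g b).symm]
  simp only [push]
  rw [sum_comm, sum_div]
  refine sum_congr rfl fun a _ => ?_
  by_cases h : f a = b <;> simp [h, avg]

theorem push_finsum (f : α → β) (M : κ → α → ℝ) :
    push f (fun a => ∑ k, M k a) = fun b => ∑ k, push f (M k) b := by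
  funext b
  simp only [push]
  rw [sum_comm]
  refine sum_congr rfl fun a _ => ?_
  split_ifs <;> simp

theorem ent_sub_push (f : α → β) (M : α → ℝ) :
    ent M - ent (push f M) = ∑ b, ent (fun a => if f a = b then M a else 0) := by
  have h1 : ∀ a b, negMulLog (if f a = b then M a else 0) =
      if f a = b then negMulLog (M a) else 0 := fun a b => by split <;> simp
  simp only [ent, h1, total_push, sum_sub_distrib]
  rw [sum_comm]
  simp [push]

theorem ent_sub_push_sum_le (f : α → β) {M : κ → α → ℝ} (h : ∀ k a, 0 ≤ M k a) :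
    ∑ k, (ent (M k) - ent (push f (M k))) ≤
      ent (fun a => ∑ k, M k a) - ent (push f fun a => ∑ k, M k a) := by
  simp only [ent_sub_push]
  rw [sum_comm]
  refine sum_le_sum fun b _ => (ent_sum_le fun k a => ?_).trans_eq ?_
  · split <;> simp [h k a]
  · congr 1; funext a; split <;> simp

omit [DecidableEq β] in
theorem sum_ent_le_avg {N : κ → α → ℝ} (h : ∀ k a, 0 ≤ N k a) :
    ∑ k, ent (N k) ≤ ent (avg σ fun a => ∑ k, N k a) := by
  have hG : (0 : ℝ) < Fintype.card G := Nat.cast_pos.2 Fintype.card_pos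
  calc ∑ k, ent (N k)
      = ∑ x : G × κ, ent fun a => (Fintype.card G : ℝ)⁻¹ * N x.2 (σ x.1 a) := by
        simp only [ent_smul, fun (x : G × κ) => ent_comp_equiv (σ x.1) (N x.2),
          Fintype.sum_prod_type, sum_const, card_univ, nsmul_eq_mul, ← mul_sum]
        field_simp
    _ ≤ ent fun a => ∑ x : G × κ, (Fintype.card G : ℝ)⁻¹ * N x.2 (σ x.1 a) :=
        ent_sum_le fun x a => mul_nonneg (inv_nonneg.2 hG.le) (h _ _)
    _ = _ := by
        congr 1; funext a
        simp only [avg, Fintype.sum_prod_type, ← mul_sum, div_eq_inv_mul]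

theorem push_avg_ent_le (f : α → β) (hf : ∀ g a, f (σ g a) = τ g (f a)) {N : κ → α → ℝ}
    (h : ∀ k a, 0 ≤ N k a) :
    ∑ k, ent (N k) - ∑ k, ent (push f (N k)) ≤
      ent (avg σ fun a => ∑ k, N k a) - ent (avg τ fun b => ∑ k, push f (N k) b) := by
  have hG : (0 : ℝ) < Fintype.card G := Nat.cast_pos.2 Fintype.card_pos
  set c : ℝ := (Fintype.card G : ℝ)⁻¹
  have e0 : ∀ x : G × κ, push f (fun a => c * N x.2 (σ x.1 a)) =
      fun b => c * push f (N x.2) (τ x.1 b) := fun x => by
    funext b
    rw [← push_comp σ τ f (N x.2) hf x.1 b]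
    simp [push, mul_sum]
  have h1 := ent_sub_push_sum_le f (M := fun (x : G × κ) a => c * N x.2 (σ x.1 a))
    fun x a => mul_nonneg (inv_nonneg.2 hG.le) (h _ _)
  have e2 : (fun a => ∑ x : G × κ, c * N x.2 (σ x.1 a)) = avg σ fun a => ∑ k, N k a := by
    funext a
    simp only [avg, Fintype.sum_prod_type, ← mul_sum, div_eq_inv_mul, c]
  rw [e2, push_avg σ τ f _ hf, push_finsum] at h1
  refine le_of_eq_of_le ?_ h1
  simp only [e0, ent_smul, fun (x : G × κ) => ent_comp_equiv (σ x.1) (N x.2),
    fun (x : G × κ) => ent_comp_equiv (τ x.1) (push f (N x.2)),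
    Fintype.sum_prod_type, sum_const, card_univ, nsmul_eq_mul, ← mul_sum, sum_sub_distrib, c]
  field_simp

end general

variable {X : Type} [Fintype X] [DecidableEq X] (act : G →* Equiv.Perm X)
variable {ι : Type} [Fintype ι] {A : Finset X} {μ : ι → Finset X → ℝ}

@[simp] theorem imH_apply (g : G) (S : Finset X) : imH act g S = im act g S := rfl

@[simp] theorem imH2_apply (g : G) (p : Finset X × Finset X) :
    imH2 act g p = (im act g p.1, im act g p.2) := rfl

theorem orb_im (g : G) (S : Finset X) : orb act (im act g S) = orb act S := by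
  ext T
  simp only [orb, mem_image, mem_univ, true_and, ← im_mul]
  exact ⟨fun ⟨h, e⟩ => ⟨h * g, e⟩, fun ⟨h, e⟩ => ⟨h * g⁻¹, by rw [mul_assoc]; simpa using e⟩⟩

/-- spreadness as an entropy bound -/
theorem spread_ent {q : ℝ} (hA : Spr act q A) {N : Finset X → ℝ}
    (h0 : ∀ s, 0 ≤ N s) (hs : ∀ s, N s ≠ 0 → s ⊆ A) (h1 : ∑ s, N s = 1) :
    -log q * ∑ s, N s * #s ≤ ent (avg (imH act) N) := by
  set P := avg (imH act) N
  have hP : ∀ s, 0 ≤ P s := avg_nonneg _ h0
  rw [← sum_avg_mul (imH act) N (φ := fun s => (#s : ℝ)) (fun g s => by simp), ent, sum_avg, h1,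
    negMulLog_one, sub_zero, mul_sum]
  refine sum_le_sum fun u _ => ?_
  rcases (hP u).eq_or_lt with e | e
  · simp [P] at e ⊢
    rw [← e]; simp
  obtain ⟨g, hg⟩ : ∃ g, N (im act g u) ≠ 0 := by
    by_contra hno
    push Not at hno
    exact e.ne' (by simp [P, avg, hno])
  have hsp := hA _ (hs _ hg)
  rw [orb_im, card_im] at hsp
  have hO : (0 : ℝ) < #(orb act u) := Nat.cast_pos.2 (orb_card_pos act u)
  have hle : P u ≤ q ^ #u := by
    have h2 := sum_orb act u N
    have h3 : ∑ T ∈ orb act u, N T ≤ 1 := h1 ▸ sum_le_univ_sum_of_nonneg h0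
    have h4 : #(orb act u) * P u ≤ 1 := by
      have hG : (0 : ℝ) < Fintype.card G := Nat.cast_pos.2 Fintype.card_pos
      simp only [P, avg, imH_apply]
      rw [mul_div, ← h2, mul_div_assoc]
      field_simp
      linarith
    by_contra hlt
    push Not at hlt
    nlinarith [mul_lt_mul_of_pos_left hlt hO]
  have := log_le_log e hle
  rw [log_pow] at this
  simp only [negMulLog]
  nlinarith

/-- few copies give information -/
theorem spr_info {q Λ : ℝ} (hq : 0 < q) (hpr : ∀ J, pr act A J ≤ (exp Λ * q) ^ #J)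
    {N : Finset X → ℝ} (h0 : ∀ s, 0 ≤ N s) (hs : ∀ s, N s ≠ 0 → s ⊆ A) (h1 : ∑ s, N s = 1) :
    ent N + (-log q - Λ) * ∑ s, N s * #s ≤ ent (avg (imH act) N) := by
  set P := avg (imH act) N
  set c := exp Λ * q
  have hc : 0 < c := mul_pos (exp_pos _) hq
  have hG : (0 : ℝ) < Fintype.card G := Nat.cast_pos.2 Fintype.card_pos
  set Q : Finset X → ℝ := fun s => if s ⊆ A then P s / c ^ #s else 0 with hQdef
  have hQ : ∑ s, Q s ≤ 1 := by
    have e1 : ∀ g, ∑ s, (if s ⊆ A then N (im act g s) / c ^ #s else 0) =
        ∑ t, if im act g⁻¹ t ⊆ A then N t / c ^ #t else 0 := fun g => by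
      rw [← Equiv.sum_comp (imH act g) fun t => if im act g⁻¹ t ⊆ A then N t / c ^ #t else 0]
      simp [im_inv_im]
    calc ∑ s, Q s = (∑ g, ∑ s, if s ⊆ A then N (im act g s) / c ^ #s else 0) /
          Fintype.card G := by
          rw [sum_comm, sum_div]
          refine sum_congr rfl fun s _ => ?_
          simp only [Q, P, avg, imH_apply]
          split_ifs
          · rw [div_right_comm, sum_div]
          · simp
      _ = ∑ t, N t / c ^ #t * pr act A t := by
          rw [sum_congr rfl fun g _ => e1 g, sum_comm, sum_div]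
          refine sum_congr rfl fun t _ => ?_
          rw [← Equiv.sum_comp (Equiv.inv G)]
          simp only [Equiv.inv_apply, inv_inv, pr]
          rw [← sum_filter, sum_const, nsmul_eq_mul]
          ring
      _ ≤ ∑ t, N t := sum_le_sum fun t _ => by
          rw [div_mul_eq_mul_div, div_le_iff₀ (pow_pos hc _)]
          exact mul_le_mul_of_nonneg_left (hpr t) (h0 t)
      _ = 1 := h1
  have hP : ∀ s, N s ≠ 0 → 0 < P s := fun s h => le_avg _ h0 s h
  have hgib := negMulLog_sum_le h0 (Q := Q) (fun s => by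
    simp only [Q]; split
    · exact div_nonneg (avg_nonneg _ h0 s) (pow_nonneg hc.le _)
    · exact le_rfl) fun s h => by
    simp only [Q, if_pos (hs s h)]
    exact (div_pos (hP s h) (pow_pos hc _)).ne'
  have e2 : ∀ s, -(N s * log (Q s)) = N s * (-log (P s)) + N s * #s * (Λ + log q) := fun s => by
    by_cases h : N s = 0
    · simp [h]
    · simp only [Q, if_pos (hs s h)]
      rw [log_div (hP s h).ne' (pow_pos hc _).ne', log_pow, log_mul (exp_pos _).ne' hq.ne', log_exp]
      ring
  have hinv : ∀ g s, -log (P (imH act g s)) = -log (P s) := fun g s => by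
    simp only [P, avg_smul_apply]
  rw [sum_congr rfl fun s _ => e2 s, sum_add_distrib, ← sum_mul,
    ← sum_avg_mul (imH act) N (φ := fun s => -log (P s)) hinv] at hgib
  have e4 : ∑ s, avg (imH act) N s = 1 := (sum_avg _ N).trans h1
  simp only [ent, P, e4, h1, negMulLog_one, sub_zero] at hgib ⊢
  have e3 : ∑ s, avg (imH act) N s * -log (avg (imH act) N s) =
      ∑ s, negMulLog (avg (imH act) N s) :=
    sum_congr rfl fun s _ => by simp [negMulLog]
  nlinarith

theorem pair_nonneg (h : Valid A μ) (i : ι) (p : Finset X × Finset X) : 0 ≤ pair μ i p :=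
  div_nonneg (mul_nonneg (h.nonneg _ _) (h.nonneg _ _)) (h.mass_nonneg i)

theorem child_nonneg (h : Valid A μ) (c : ι × Option (Finset X)) (p : Finset X × Finset X) :
    0 ≤ child act μ c p := by
  rcases c with ⟨i, _ | u⟩
  · exact mul_nonneg (by norm_num) (pair_nonneg h i p)
  · exact mul_nonneg (by norm_num)
      (div_nonneg (mul_nonneg (ker_nonneg act h _ _ _) (h.nonneg _ _)) (h.mass_nonneg i))

theorem sum_child (h : Valid A μ) (p : Finset X × Finset X) :
    ∑ c, child act μ c p = ∑ i, pair μ i p := by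
  rw [Fintype.sum_prod_type]
  refine sum_congr rfl fun i _ => ?_
  rw [Fintype.sum_option]
  simp only [child]
  rw [← mul_sum, ← sum_div, ← sum_mul, sum_ker act h, pair]
  ring

theorem valid_next (h : Valid A μ) : Valid A (next act μ) where
  nonneg c v := push_nonneg _ (child_nonneg act h c) v
  supp c w hw := by
    obtain ⟨p, -, hp⟩ := exists_ne_zero_of_sum_ne_zero hw
    obtain ⟨rfl, hp⟩ := ite_ne_right_iff.1 hp
    have hsum : ∑ c, child act μ c p ≠ 0 := fun e => hp (by
      simp [(sum_eq_zero_iff_of_nonneg fun c _ => child_nonneg act h c p).1 e c (mem_univ c)])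
    rw [sum_child act h] at hsum
    obtain ⟨i, -, hi⟩ := exists_ne_zero_of_sum_ne_zero hsum
    simp only [pair, ne_eq, div_eq_zero_iff, mul_eq_zero, not_or] at hi
    exact union_subset (h.supp i _ hi.1.1) (h.supp i _ hi.1.2)
  total := by
    simp only [next, total_push]
    rw [sum_comm, sum_congr rfl fun p _ => sum_child act h p, sum_comm]
    simp only [Fintype.sum_prod_type, sum_pair h]
    exact h.total

theorem size_next (h : Valid A μ) : size (next act μ) + ovl μ = 2 * size μ := by
  simp only [size, next, sum_push]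
  rw [sum_comm]
  simp only [← sum_mul, sum_child act h]
  simp only [ovl, sum_mul]
  rw [sum_comm, ← sum_add_distrib, mul_sum]
  refine sum_congr rfl fun i _ => ?_
  rw [← sum_add_distrib]
  calc ∑ p : Finset X × Finset X, (pair μ i p * #(p.1 ∪ p.2) + pair μ i p * #(p.1 ∩ p.2))
      = ∑ v, ∑ v', (pair μ i (v, v') * #v + pair μ i (v, v') * #v') := by
        rw [Fintype.sum_prod_type]
        refine sum_congr rfl fun v _ => sum_congr rfl fun v' _ => ?_
        rw [← mul_add, ← mul_add]
        congr 1
        exact_mod_cast card_union_add_card_inter v v'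
    _ = 2 * ∑ v, μ i v * #v := by
        simp only [sum_add_distrib, ← sum_mul, sum_pair h]
        rw [sum_comm]
        simp only [pair_swap i _, ← sum_mul, sum_pair h]
        ring

theorem pvo_inv (g : G) (v o : Finset X) :
    pvo act μ (im act g v) (im act g o) = pvo act μ v o := by
  simp only [pvo]
  rw [← Equiv.sum_comp (imH act g)]
  refine sum_congr rfl fun v' _ => ?_
  have e : im act g v ∩ im act g v' = im act g (v ∩ v') := by simp [im, map_inter]
  simp only [imH_apply, e, (im_injective act g).eq_iff]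
  split_ifs
  · exact avg_smul_apply (imH2 act) _ g (v, v')
  · rfl

theorem sum_pvo_mul (φ : Finset X → Finset X → ℝ) :
    ∑ v, ∑ v', wpair act μ (v, v') * φ v (v ∩ v') = ∑ v, ∑ o, pvo act μ v o * φ v o := by
  refine sum_congr rfl fun v _ => ?_
  simp only [pvo, sum_mul, ite_mul, zero_mul]
  rw [sum_comm]
  simp

theorem total_po (h : Valid A μ) : ∑ o, po act μ o = 1 := by
  simp only [po]
  rw [sum_comm]
  simp only [sum_pvo act h, pv, sum_avg]
  rw [sum_comm]
  exact h.total

theorem po_eq (h : Valid A μ) : po act μ = avg (imH act) fun u => ∑ i, fake act μ i u := by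
  funext o
  simp only [po, avg, imH_apply, fake, ker]
  symm
  calc (∑ g, ∑ i, ∑ v, μ i v * pvo act μ v (im act g o) / pv act μ v) / Fintype.card G
      = (∑ g, ∑ v, (∑ i, μ i (im act g v)) * pvo act μ v o / pv act μ v) / Fintype.card G := by
        congr 1
        refine sum_congr rfl fun g _ => ?_
        rw [sum_comm, ← Equiv.sum_comp (imH act g)]
        refine sum_congr rfl fun v _ => ?_
        simp only [imH_apply, pvo_inv, sum_mul, sum_div]
        refine sum_congr rfl fun i _ => ?_
        rw [show pv act μ (im act g v) = pv act μ v from avg_smul_apply (imH act) _ g v]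
    _ = ∑ v, pv act μ v * pvo act μ v o / pv act μ v := by
        rw [sum_comm, sum_div]
        refine sum_congr rfl fun v _ => ?_
        rw [← sum_div, ← sum_mul]
        simp only [pv, avg, imH_apply]
        ring
    _ = ∑ v, pvo act μ v o := by
        refine sum_congr rfl fun v _ => ?_
        by_cases hv : pv act μ v = 0
        · have := (sum_eq_zero_iff_of_nonneg fun o _ => pvo_nonneg act h v o).1
            ((sum_pvo act h v).trans hv) o (mem_univ o)
          simp [hv, this]
        · exact mul_div_cancel_left₀ _ hv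

theorem sum_fake_card (h : Valid A μ) :
    ∑ u, (∑ i, fake act μ i u) * #u = ovl μ := by
  rw [← sum_avg_mul (imH act) _ (φ := fun u => (#u : ℝ)) fun g u => by simp, ← po_eq act h]
  simp only [po, sum_mul]
  rw [sum_comm, ← sum_pvo_mul act fun _ o => (#o : ℝ), ← Fintype.sum_prod_type', wpair,
    sum_avg_mul (imH2 act) _ (φ := fun p : Finset X × Finset X => (#(p.1 ∩ p.2) : ℝ))
      (fun g p => by simp [im, ← map_inter]), ovl]
  simp only [sum_mul]
  exact sum_comm

theorem sum_ent_pvo (h : Valid A μ) :
    ∑ v, ent (pvo act μ v) = ∑ i, ∑ v, ent (ker act μ i v) := by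
  have hc : ∀ g v, ent (pvo act μ (imH act g v)) / pv act μ (imH act g v) =
      ent (pvo act μ v) / pv act μ v := fun g v => by
    rw [show pv act μ (imH act g v) = pv act μ v from avg_smul_apply (imH act) _ g v,
      ← ent_comp_equiv (imH act g) (pvo act μ (imH act g v))]
    simp only [imH_apply, pvo_inv]
  have e := sum_avg_mul (imH act) (fun v => ∑ i, μ i v)
    (φ := fun v => ent (pvo act μ v) / pv act μ v) hc
  have e1 : ∀ v, pv act μ v * (ent (pvo act μ v) / pv act μ v) = ent (pvo act μ v) := fun v => by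
    by_cases hv : pv act μ v = 0
    · have : ∀ o, pvo act μ v o = 0 := fun o =>
        (sum_eq_zero_iff_of_nonneg fun o _ => pvo_nonneg act h v o).1
          ((sum_pvo act h v).trans hv) o (mem_univ o)
      simp [hv, ent, this]
    · exact mul_div_cancel₀ _ hv
  rw [← sum_congr rfl fun v _ => e1 v]
  refine e.trans ?_
  rw [sum_comm (γ := ι)]
  refine sum_congr rfl fun v _ => ?_
  rw [sum_mul]
  refine sum_congr rfl fun i _ => ?_
  rw [mul_div, ← div_mul_eq_mul_div, ← ent_smul]
  congr 1
  funext u
  simp only [ker]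
  ring

theorem ent_wpair_le (h : Valid A μ) :
    ent (wpair act μ) ≤ 2 * (ent (pv act μ) + ∑ v, ent (pvo act μ v)) - ent (po act μ) := by
  set Q : Finset X × Finset X → ℝ := fun p =>
    pvo act μ p.1 (p.1 ∩ p.2) * pvo act μ p.2 (p.1 ∩ p.2) / po act μ (p.1 ∩ p.2) with hQdef
  have hpo : ∀ o, 0 ≤ po act μ o := fun o => sum_nonneg fun v _ => pvo_nonneg act h v o
  have hsym : ∀ v v', wpair act μ (v, v') = wpair act μ (v', v) := fun v v' => by
    simp [wpair, avg, pair_swap _ (im act _ v)]
  have hge : ∀ v v', wpair act μ (v, v') ≤ pvo act μ v (v ∩ v') := fun v v' => by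
    refine le_of_eq_of_le ?_ (single_le_sum (fun w _ => ?_) (mem_univ v'))
    · rw [if_pos rfl]
    · split <;> simp [wpair_nonneg act h]
  have hge2 : ∀ v v', wpair act μ (v, v') ≤ pvo act μ v' (v ∩ v') := fun v v' => by
    rw [hsym, inter_comm]; exact hge v' v
  have hgp : ∀ v o, pvo act μ v o ≤ po act μ o := fun v o =>
    single_le_sum (fun w _ => pvo_nonneg act h w o) (mem_univ v)
  have hpos : ∀ v v', wpair act μ (v, v') ≠ 0 → 0 < pvo act μ v (v ∩ v') ∧
      0 < pvo act μ v' (v ∩ v') ∧ 0 < po act μ (v ∩ v') := fun v v' hw => by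
    have := (wpair_nonneg act h (v, v')).lt_of_ne (Ne.symm hw)
    exact ⟨this.trans_le (hge v v'), this.trans_le (hge2 v v'),
      this.trans_le ((hge v v').trans (hgp v _))⟩
  have hw1 : ∑ p, wpair act μ p = 1 := by
    rw [Fintype.sum_prod_type]
    simp only [sum_wpair act h, pv, sum_avg]
    rw [sum_comm]
    exact h.total
  have hQ : ∑ p, Q p ≤ 1 := by
    calc ∑ p, Q p ≤ ∑ p : Finset X × Finset X, ∑ o,
          pvo act μ p.1 o * pvo act μ p.2 o / po act μ o :=
          sum_le_sum fun p _ => single_le_sum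
            (f := fun o => pvo act μ p.1 o * pvo act μ p.2 o / po act μ o)
            (fun o _ => div_nonneg
              (mul_nonneg (pvo_nonneg act h p.1 o) (pvo_nonneg act h p.2 o)) (hpo o))
            (mem_univ (p.1 ∩ p.2))
      _ = ∑ o, po act μ o := by
          rw [sum_comm]
          refine sum_congr rfl fun o _ => ?_
          rw [← sum_div, Fintype.sum_prod_type]
          simp only [← mul_sum, ← sum_mul]
          exact mul_self_div_self _
      _ = 1 := total_po act h
  have hgib := negMulLog_sum_le (wpair_nonneg act h) (Q := Q)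
    (fun p => div_nonneg (mul_nonneg (pvo_nonneg act h _ _) (pvo_nonneg act h _ _)) (hpo _))
    fun ⟨v, v'⟩ hw => by
      obtain ⟨a, b, c⟩ := hpos v v' hw
      exact (div_pos (mul_pos a b) c).ne'
  set lo : Finset X → Finset X → ℝ := fun v o => -log (pvo act μ v o)
  have e2 : ∀ v v', -(wpair act μ (v, v') * log (Q (v, v'))) =
      wpair act μ (v, v') * lo v (v ∩ v') + wpair act μ (v', v) * lo v' (v' ∩ v) -
        wpair act μ (v, v') * -log (po act μ (v ∩ v')) := fun v v' => by
    rw [← hsym v v', inter_comm v' v]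
    by_cases hw : wpair act μ (v, v') = 0
    · simp [hw]
    · obtain ⟨a, b, c⟩ := hpos v v' hw
      simp only [Q, lo]
      rw [log_div (mul_pos a b).ne' c.ne', log_mul a.ne' b.ne']
      ring
  have e3 : ∑ v, ∑ v', wpair act μ (v', v) * lo v' (v' ∩ v) =
      ∑ v, ∑ v', wpair act μ (v, v') * lo v (v ∩ v') := sum_comm
  have e4 : ∑ v, ∑ o, pvo act μ v o * lo v o = ∑ v, ∑ o, negMulLog (pvo act μ v o) := by
    simp [lo, negMulLog]
  have e5 : ∑ v, ∑ o, pvo act μ v o * -log (po act μ o) = ∑ o, negMulLog (po act μ o) := by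
    rw [sum_comm]
    refine sum_congr rfl fun o _ => ?_
    rw [← sum_mul]
    simp [po, negMulLog]
  rw [hw1, Fintype.sum_prod_type (f := fun p => -(wpair act μ p * log (Q p)))] at hgib
  simp only [e2, sum_add_distrib, sum_sub_distrib] at hgib
  rw [e3, sum_pvo_mul act lo, sum_pvo_mul act fun _ o => -log (po act μ o), e4, e5] at hgib
  have hent : ent (pv act μ) + ∑ v, ent (pvo act μ v) = ∑ v, ∑ o, negMulLog (pvo act μ v o) := by
    have h1 : ∑ v, pv act μ v = 1 := by
      simp only [pv, sum_avg]; rw [sum_comm]; exact h.total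
    simp only [ent, sum_sub_distrib, sum_pvo act h, h1, negMulLog_one]
    ring
  rw [hent]
  simp only [ent, hw1, total_po act h, negMulLog_one, sub_zero]
  linarith

theorem ent_child (h : Valid A μ) :
    ∑ c, ent (child act μ c) = 2 * ∑ i, ent (μ i) -
      (∑ i, ent (μ i) - ∑ i, ∑ u, ent (fun v => ker act μ i v u)) / 8 := by
  rw [Fintype.sum_prod_type, mul_sum, ← sum_sub_distrib, sum_div, ← sum_sub_distrib]
  refine sum_congr rfl fun i _ => ?_
  have hz : ∀ v, mass μ i = 0 → μ i v = 0 := fun v hm => h.eq_zero hm v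
  have hm : mass μ i / mass μ i * ent (μ i) = ent (μ i) := by
    by_cases hm : mass μ i = 0
    · simp [ent, hz _ hm]
    · rw [div_self hm, one_mul]
  have h1 : ent (child act μ (i, none)) = 7 / 8 * (2 * ent (μ i)) := by
    show ent (fun p => 7 / 8 * pair μ i p) = _
    rw [ent_smul]
    unfold pair
    rw [ent_mul_div (M := μ i) (N := μ i) (n := mass μ i) rfl (fun hm v => hz v hm),
      show (∑ a, μ i a) = mass μ i from rfl, hm]
    ring
  have h2 : ∀ u, ent (child act μ (i, some u)) = 1 / 8 *
      (ent (fun v => ker act μ i v u) + fake act μ i u / mass μ i * ent (μ i)) := fun u => by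
    have hc : child act μ (i, some u) =
        fun p => 1 / 8 * (ker act μ i p.1 u * μ i p.2 / mass μ i) := funext fun p => by rw [child]
    rw [hc, ent_smul]
    have e := ent_mul_div (M := fun v => ker act μ i v u) (N := μ i) (n := mass μ i) rfl
      (fun hm v => by simp [ker, hz v hm])
    simp only at e
    rw [e, fake]
  rw [Fintype.sum_option, h1, sum_congr rfl fun u _ => h2 u, ← mul_sum, sum_add_distrib, ← sum_mul,
    ← sum_div]
  have : ∑ u, fake act μ i u = mass μ i := by
    simp only [fake]
    rw [sum_comm]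
    exact sum_congr rfl fun v _ => sum_ker act h i v
  rw [this, hm]
  ring

theorem info_next_le (h : Valid A μ) :
    info act (next act μ) ≤ ent (wpair act μ) - ∑ c, ent (child act μ c) := by
  have h1 := push_avg_ent_le (imH2 act) (imH act) (fun p : Finset X × Finset X => p.1 ∪ p.2)
    (fun g p => by simp [im, map_union]) (child_nonneg act h)
  simp only [sum_child act h] at h1
  simp only [info, pv, next, wpair]
  linarith

theorem info_nonneg (h : Valid A μ) : 0 ≤ info act μ :=
  sub_nonneg.2 (sum_ent_le_avg _ h.nonneg)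

end Vale.Agent.P064
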